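import Mathlib

/-! P160: counting functions `X → Bool`. -/

namespace P160

open Finset

variable {X : Type*} [Fintype X] [DecidableEq X]

/-- the number of functions with prescribed values on `D` -/
theorem card_agree (D : Finset X) (g0 : X → Bool) :
    (#{g : X → Bool | ∀ x ∈ D, g x = g0 x} : ℝ) ≤ 2 ^ (Fintype.card X - #D) := by
  classical
  have h1 : #{g : X → Bool | ∀ x ∈ D, g x = g0 x} ≤ Fintype.card ((Dᶜ : Finset X) → Bool) := by
    refine Finset.card_le_card_of_injOn (fun g x => g x) (t := Finset.univ)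
      (fun _ _ => Finset.mem_coe.2 (Finset.mem_univ _)) ?_
    intro g hg g' hg' hgg
    funext x
    by_cases hx : x ∈ D
    · rw [(Finset.mem_filter.1 hg).2 x hx, (Finset.mem_filter.1 hg').2 x hx]
    · exact congrFun hgg ⟨x, Finset.mem_compl.2 hx⟩
  have h2 : Fintype.card ((Dᶜ : Finset X) → Bool) = 2 ^ (Fintype.card X - #D) := by
    rw [Fintype.card_fun, Fintype.card_bool, Fintype.card_coe, Finset.card_compl]
  rw [h2] at h1
  exact_mod_cast h1

/-- fibrewise bound -/
theorem card_fib {α β : Type*} [DecidableEq β] (F : Finset α) (V : Finset β) (f : α → β)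
    (hf : ∀ a ∈ F, f a ∈ V) {b : ℝ} (h : ∀ y ∈ V, (#{a ∈ F | f a = y} : ℝ) ≤ b) :
    (#F : ℝ) ≤ #V * b := by
  rw [Finset.card_eq_sum_card_fiberwise (t := V) (f := f) (fun a ha => hf a ha), Nat.cast_sum]
  refine (Finset.sum_le_sum h).trans ?_
  rw [Finset.sum_const, nsmul_eq_mul]

/-- conditioning on the values on `D` -/
theorem card_cond (F : Finset (X → Bool)) (D : Finset X) {b : ℝ} (hb : 0 ≤ b)
    (h : ∀ g0 ∈ F, (#{g ∈ F | ∀ x ∈ D, g x = g0 x} : ℝ) ≤ b) : (#F : ℝ) ≤ 2 ^ #D * b := by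
  classical
  have h1 := card_fib F (Finset.univ : Finset (D → Bool)) (fun g x => g x)
    (fun _ _ => Finset.mem_univ _) (b := b) ?_
  · refine h1.trans (le_of_eq ?_)
    rw [Finset.card_univ, Fintype.card_fun, Fintype.card_bool, Fintype.card_coe]
    push_cast
    rfl
  · intro y _
    rcases Finset.eq_empty_or_nonempty {a ∈ F | (fun x : D => a x) = y} with h0 | ⟨g0, hg0⟩
    · rw [h0, Finset.card_empty, Nat.cast_zero]
      exact hb
    · rw [Finset.mem_filter] at hg0
      refine le_trans ?_ (h g0 hg0.1)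
      refine Nat.cast_le.2 (Finset.card_le_card fun g hg => ?_)
      rw [Finset.mem_filter] at hg ⊢
      refine ⟨hg.1, fun x hx => ?_⟩
      exact (congrFun hg.2 ⟨x, hx⟩).trans (congrFun hg0.2 ⟨x, hx⟩).symm

end P160
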