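import Mathlib

/-! P160: the Littlewood-Offord inequality of Erdos. -/

namespace P160

open Finset

/-- the sign -/
def sg (b : Bool) : ℝ := if b then 1 else -1

theorem sg_cases (b : Bool) : sg b = 1 ∨ sg b = -1 := by
  cases b <;> simp [sg]

theorem sg_inj {a b : Bool} (h : sg a = sg b) : a = b := by
  cases a <;> cases b
  · rfl
  · norm_num [sg] at h
  · norm_num [sg] at h
  · rfl

theorem sg_not (b : Bool) : sg (!b) = -sg b := by
  cases b <;> simp [sg]

open Classical in
private theorem LO_term {v : ℝ} (hv : v ≠ 0) (b : Bool) :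
    sg b * v = if b = decide (0 < v) then |v| else -|v| := by
  rcases lt_or_gt_of_ne hv with h | h
  · have h1 : decide (0 < v) = false := by simp [h.le]
    rw [h1, abs_of_neg h]
    cases b <;> simp [sg]
  · have h1 : decide (0 < v) = true := by simp [h]
    rw [h1, abs_of_pos h]
    cases b <;> simp [sg]

open Classical in
theorem lo {ι : Type*} [Fintype ι] [DecidableEq ι] (v : ι → ℝ) (hv : ∀ j, v j ≠ 0) (c : ℝ) :
    #{τ : ι → Bool | ∑ j, sg (τ j) * v j = c}
      ≤ (Fintype.card ι).choose (Fintype.card ι / 2) := by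
  set B : (ι → Bool) → Finset ι := fun τ => {j | τ j = decide (0 < v j)} with hB
  have hinj : Function.Injective B := by
    intro τ τ' h
    funext j
    have h1 : (τ j = decide (0 < v j)) ↔ (τ' j = decide (0 < v j)) := by
      have := congrArg (fun s => j ∈ s) h
      simpa [hB] using this
    cases h2 : τ j <;> cases h3 : τ' j <;> cases h4 : decide (0 < v j) <;>
      simp [h2, h3, h4] at h1 ⊢
  rw [← Finset.card_image_of_injective _ hinj]
  refine IsAntichain.sperner ?_
  intro s hs t ht hne hst
  rw [Finset.coe_image, Set.mem_image] at hs ht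
  obtain ⟨τ, hτ, rfl⟩ := hs
  obtain ⟨τ', hτ', rfl⟩ := ht
  rw [Finset.mem_coe, Finset.mem_filter] at hτ hτ'
  have h1 : ∑ j, sg (τ j) * v j < ∑ j, sg (τ' j) * v j := by
    obtain ⟨j0, h2, h3⟩ := Finset.exists_of_ssubset (Finset.ssubset_iff_subset_ne.2 ⟨hst, hne⟩)
    refine Finset.sum_lt_sum (fun j _ => ?_) ⟨j0, Finset.mem_univ _, ?_⟩
    · rw [LO_term (hv j), LO_term (hv j)]
      have h4 : τ j = decide (0 < v j) → τ' j = decide (0 < v j) := by
        intro h5
        have : j ∈ B τ' := hst (by simp [hB, h5])
        simpa [hB] using this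
      have h6 := abs_nonneg (v j)
      split_ifs with h7 h8 h8
      · exact le_refl _
      · exact absurd (h4 h7) h8
      · linarith
      · exact le_refl _
    · rw [LO_term (hv j0), LO_term (hv j0)]
      have h4 : ¬ τ j0 = decide (0 < v j0) := by simpa [hB] using h3
      have h5 : τ' j0 = decide (0 < v j0) := by simpa [hB] using h2
      rw [if_neg h4, if_pos h5]
      have := abs_pos.2 (hv j0)
      linarith
  rw [hτ.2, hτ'.2] at h1
  exact lt_irrefl _ h1

end P160
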