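import Vale.Agent.Results.P160.SparseKernel

/-! P160: the law of a random symmetric matrix with independent uniform signs. -/

namespace P160

open MeasureTheory ProbabilityTheory Filter Topology
open Vale.Agent.Results.P160.SparseKernel

theorem symSign_finite (n : ℕ) : (SymSign n).Finite := by
  have h1 : {f : Fin n → ℝ | ∀ j, f j ∈ ({1, -1} : Set ℝ)}.Finite :=
    Set.Finite.pi' fun _ => (Set.finite_singleton (-1 : ℝ)).insert 1
  have h2 : {A : Fin n → Fin n → ℝ | ∀ i, A i ∈ {f : Fin n → ℝ | ∀ j, f j ∈ ({1, -1} : Set ℝ)}}.Finite :=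
    Set.Finite.pi' fun _ => h1
  refine h2.subset fun A hA i j => ?_
  rcases hA.2 i j with h | h
  · exact Or.inl h
  · exact Or.inr h

variable {Ω : Type*} [MeasurableSpace Ω] {P : Measure Ω} [IsProbabilityMeasure P] {n : ℕ}
  {a : Fin n → Fin n → Ω → ℝ}

omit [IsProbabilityMeasure P] in
/-- every symmetric sign matrix has the same probability -/
theorem law_point (hsymm : ∀ i j, a i j = a j i)
    (hind : iIndepFun (fun p : {p : Fin n × Fin n // p.1 ≤ p.2} => a p.1.1 p.1.2) P)
    (hunif : ∀ i j, P {ω | a i j ω = 1} = 1 / 2 ∧ P {ω | a i j ω = -1} = 1 / 2)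
    {S : Matrix (Fin n) (Fin n) ℝ} (hS : S ∈ SymSign n) :
    P.real {ω | (Matrix.of fun i j => a i j ω) = S}
      = (1 / 2) ^ Fintype.card {p : Fin n × Fin n // p.1 ≤ p.2} := by
  classical
  have h1 : {ω | (Matrix.of fun i j => a i j ω) = S} =
      ⋂ p ∈ (Finset.univ : Finset {p : Fin n × Fin n // p.1 ≤ p.2}),
        (fun ω => a p.1.1 p.1.2 ω) ⁻¹' {S p.1.1 p.1.2} := by
    ext ω
    simp only [Set.mem_ofPred_eq, Finset.mem_univ, Set.iInter_true, Set.mem_iInter,
      Set.mem_preimage, Set.mem_singleton_iff]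
    constructor
    · intro h p
      rw [← h]
      rfl
    · intro h
      ext i j
      rcases le_total i j with hij | hij
      · exact h ⟨(i, j), hij⟩
      · have h2 := h ⟨(j, i), hij⟩
        change a i j ω = S i j
        rw [hsymm i j, hS.1.apply j i]
        exact h2
  have h2 : ∀ p : {p : Fin n × Fin n // p.1 ≤ p.2},
      P ((fun ω => a p.1.1 p.1.2 ω) ⁻¹' {S p.1.1 p.1.2}) = 1 / 2 := by
    intro p
    rcases hS.2 p.1.1 p.1.2 with h | h
    · rw [h]
      exact (hunif p.1.1 p.1.2).1
    · rw [h]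
      exact (hunif p.1.1 p.1.2).2
  rw [Measure.real, h1, hind.measure_inter_preimage_eq_mul Finset.univ
    (sets := fun p => {S p.1.1 p.1.2}) (fun p _ => measurableSet_singleton _),
    Finset.prod_congr rfl fun p _ => h2 p, Finset.prod_const, Finset.card_univ,
    ENNReal.toReal_pow]
  norm_num

theorem law_ae (hmeas : ∀ i j, Measurable (a i j)) (hsymm : ∀ i j, a i j = a j i)
    (hunif : ∀ i j, P {ω | a i j ω = 1} = 1 / 2 ∧ P {ω | a i j ω = -1} = 1 / 2) :
    ∀ᵐ ω ∂P, (Matrix.of fun i j => a i j ω) ∈ SymSign n := by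
  have h1 : ∀ i j, ∀ᵐ ω ∂P, a i j ω = 1 ∨ a i j ω = -1 := by
    intro i j
    have hm1 : MeasurableSet {ω | a i j ω = 1} := hmeas i j (measurableSet_singleton 1)
    have hm2 : MeasurableSet {ω | a i j ω = -1} := hmeas i j (measurableSet_singleton (-1))
    have h2 : P ({ω | a i j ω = 1} ∪ {ω | a i j ω = -1}) = 1 := by
      rw [measure_union _ hm2, (hunif i j).1, (hunif i j).2, ENNReal.add_halves]
      rw [Set.disjoint_left]
      intro ω h3 h4
      have h5 : (1 : ℝ) = -1 := h3.symm.trans h4
      norm_num at h5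
    have h3 := (prob_compl_eq_zero_iff (hm1.union hm2)).2 h2
    exact h3
  have h2 : ∀ᵐ ω ∂P, ∀ i j, a i j ω = 1 ∨ a i j ω = -1 :=
    ae_all_iff.2 fun i => ae_all_iff.2 fun j => h1 i j
  filter_upwards [h2] with ω hω
  refine ⟨?_, hω⟩
  ext i j
  change a j i ω = a i j ω
  rw [hsymm i j]

/-- the probability of an event is the proportion of symmetric sign matrices -/
theorem law_eq (hmeas : ∀ i j, Measurable (a i j)) (hsymm : ∀ i j, a i j = a j i)
    (hind : iIndepFun (fun p : {p : Fin n × Fin n // p.1 ≤ p.2} => a p.1.1 p.1.2) P)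
    (hunif : ∀ i j, P {ω | a i j ω = 1} = 1 / 2 ∧ P {ω | a i j ω = -1} = 1 / 2)
    (E : Matrix (Fin n) (Fin n) ℝ → Prop) :
    P.real {ω | E (Matrix.of fun i j => a i j ω)} = Pr n E := by
  classical
  obtain ⟨t, ht⟩ : ∃ t : ℝ, t = (1 / 2) ^ Fintype.card {p : Fin n × Fin n // p.1 ≤ p.2} :=
    ⟨_, rfl⟩
  have key : ∀ E : Matrix (Fin n) (Fin n) ℝ → Prop,
      P.real {ω | E (Matrix.of fun i j => a i j ω)} = ((SymSign n ∩ {A | E A}).ncard : ℝ) * t := by
    intro E
    have hfin : (SymSign n ∩ {A | E A}).Finite := (symSign_finite n).subset Set.inter_subset_left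
    have h1 : P.real {ω | E (Matrix.of fun i j => a i j ω)} =
        P.real (⋃ S ∈ hfin.toFinset, {ω | (Matrix.of fun i j => a i j ω) = S}) := by
      refine measureReal_congr ?_
      filter_upwards [law_ae hmeas hsymm hunif] with ω hω
      refine propext ⟨fun h => ?_, fun h => ?_⟩
      · refine Set.mem_iUnion₂.2 ⟨(Matrix.of fun i j => a i j ω), ?_, rfl⟩
        exact hfin.mem_toFinset.2 ⟨hω, h⟩
      · obtain ⟨S, hS, h2⟩ := Set.mem_iUnion₂.1 h
        have h3 := (hfin.mem_toFinset.1 hS).2
        have h4 : (Matrix.of fun i j => a i j ω) = S := h2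
        change E (Matrix.of fun i j => a i j ω)
        rw [h4]
        exact h3
    rw [h1, measureReal_biUnion_finset]
    · rw [Finset.sum_congr rfl fun S hS => law_point hsymm hind hunif (hfin.mem_toFinset.1 hS).1,
        Finset.sum_const, nsmul_eq_mul, ht, Set.ncard_eq_toFinset_card _ hfin]
    · intro S _ S' _ hne
      rw [Function.onFun, Set.disjoint_left]
      intro ω h2 h3
      exact hne (h2.symm.trans h3)
    · intro S _
      have h2 : {ω | (Matrix.of fun i j => a i j ω) = S} = ⋂ i, ⋂ j, (a i j) ⁻¹' {S i j} := by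
        ext ω
        simp only [Set.mem_ofPred_eq, Set.mem_iInter, Set.mem_preimage, Set.mem_singleton_iff]
        constructor
        · intro h i j
          rw [← h]
          rfl
        · intro h
          ext i j
          exact h i j
      rw [h2]
      exact MeasurableSet.iInter fun i => MeasurableSet.iInter fun j =>
        hmeas i j (measurableSet_singleton _)
  have h1 := key fun _ => True
  have h2 : P.real {ω : Ω | True} = 1 := by
    have h3 : {ω : Ω | True} = Set.univ := by
      ext ω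
      simp
    rw [h3, probReal_univ]
  have h4 : (SymSign n ∩ {A | True}) = SymSign n := by
    ext A
    simp
  rw [h2, h4] at h1
  have h5 : ((SymSign n).ncard : ℝ) ≠ 0 := by
    intro h
    rw [h, zero_mul] at h1
    exact one_ne_zero h1
  rw [key E, Pr, eq_div_iff h5, mul_assoc, mul_comm t, ← h1, mul_one]

end P160
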