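import Vale.Agent.Lib.P160.Num

/-! P160: the estimates for large `n`. -/

namespace P160

open Finset Filter Topology

private theorem Lim_ev {η C : ℝ} (hη : 0 < η) (hC : 0 < C) (y : ℝ) :
    ∀ᶠ x : ℝ in atTop, 1 < x ∧ 2 * x ^ (1 - η) * Real.log x ≤ C * x ∧
      2 * x ^ (1 - η) ≤ x / 50 ∧ y ≤ η / 4 * Real.log x ∧ 1 ≤ x ^ (1 - η) ∨ 1 < η := by
  rcases lt_or_ge 1 η with h1 | h1
  · exact Eventually.of_forall fun x => Or.inr h1
  have e1 : ∀ᶠ x : ℝ in atTop, ‖Real.log x‖ ≤ (C / 2) * ‖x ^ η‖ :=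
    (isLittleO_log_rpow_atTop hη).bound (by positivity)
  have e2 : ∀ᶠ x : ℝ in atTop, (100 : ℝ) ≤ x ^ η :=
    (tendsto_rpow_atTop hη).eventually_ge_atTop 100
  have e3 : ∀ᶠ x : ℝ in atTop, 4 / η * y ≤ Real.log x :=
    Real.tendsto_log_atTop.eventually_ge_atTop _
  filter_upwards [e1, e2, e3, eventually_gt_atTop (1 : ℝ)] with x h2 h3 h4 h5
  left
  have hx0 : 0 < x := by linarith
  have hlog : 0 ≤ Real.log x := Real.log_nonneg h5.le
  have hp : 0 < x ^ (1 - η) := Real.rpow_pos_of_pos hx0 _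
  have hmul : x ^ (1 - η) * x ^ η = x := by
    rw [← Real.rpow_add hx0, sub_add_cancel, Real.rpow_one]
  rw [Real.norm_of_nonneg hlog, Real.norm_of_nonneg (Real.rpow_nonneg hx0.le _)] at h2
  refine ⟨h5, ?_, ?_, ?_, ?_⟩
  · have := mul_le_mul_of_nonneg_left h2 hp.le
    have e : x ^ (1 - η) * (C / 2 * x ^ η) = C / 2 * x := by
      linear_combination (C / 2) * hmul
    linarith
  · have := mul_le_mul_of_nonneg_left h3 hp.le
    linarith
  · have := mul_le_mul_of_nonneg_left h4 (by positivity : 0 ≤ η / 4)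
    have e : η / 4 * (4 / η * y) = y := by field_simp
    linarith
  · exact Real.one_le_rpow h5.le (by linarith)

theorem term_ev (c : ℝ) (hc : 2 < c) (z : ℕ → ℕ)
    (hz : ∀ᶠ n : ℕ in atTop, c * n / Real.logb 2 n ≤ z n) :
    ∃ r : ℝ, 0 < r ∧ r < 1 ∧ ∀ᶠ n : ℕ in atTop, ∀ S I : Finset (Fin n), 3 ≤ #S → #S + z n ≤ n →
      #I = #S - 1 → (n.choose #S : ℝ) * n.choose (#S - 1) * bet rho S Iᶜ ≤ r ^ n / 2 ^ n := by
  have hlog2 : 0 < Real.log 2 := Real.log_pos one_lt_two
  obtain ⟨θ, hθ⟩ : ∃ θ : ℝ, θ = c / 2 := ⟨_, rfl⟩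
  have hθ1 : 1 < θ := by rw [hθ]; linarith
  obtain ⟨η, hη⟩ : ∃ η : ℝ, η = (θ - 1) / (6 * θ) := ⟨_, rfl⟩
  have hη0 : 0 < η := by rw [hη]; exact div_pos (by linarith) (by linarith)
  have hη1 : 3 * η ≤ 1 := by
    rw [hη]
    have : (θ - 1) / (6 * θ) ≤ 1 / 3 := by
      rw [div_le_div_iff₀ (by linarith) (by norm_num)]
      linarith
    linarith
  have h5 : (1 - 3 * η) * θ = (θ + 1) / 2 := by
    rw [hη]
    have : θ ≠ 0 := by linarith
    field_simp
    ring
  obtain ⟨y, hy⟩ : ∃ y : ℝ, y = max 0 (-Real.log ((θ - 1) / 8 * Real.log 2)) := ⟨_, rfl⟩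
  have hq : 0 < (θ - 1) / 8 * Real.log 2 := mul_pos (by linarith) hlog2
  have hy0 : 0 ≤ y := by rw [hy]; exact le_max_left _ _
  have hxy : 2 * Real.exp (-y) ≤ (θ - 1) / 4 * Real.log 2 := by
    have h6 : -Real.log ((θ - 1) / 8 * Real.log 2) ≤ y := by rw [hy]; exact le_max_right _ _
    have h7 : Real.exp (-y) ≤ (θ - 1) / 8 * Real.log 2 := by
      rw [← Real.exp_log hq]
      exact Real.exp_le_exp.2 (by linarith)
    linarith
  obtain ⟨r2, hr2⟩ : ∃ r2 : ℝ, r2 = Real.exp (-(Real.log 2 * ((θ - 1) / 4))) := ⟨_, rfl⟩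
  have hr20 : 0 < r2 := by rw [hr2]; exact Real.exp_pos _
  have hr21 : r2 < 1 := by
    rw [hr2, Real.exp_lt_one_iff]
    have : 0 < Real.log 2 * ((θ - 1) / 4) := mul_pos hlog2 (by linarith)
    linarith
  refine ⟨max (49 / 50) r2, by positivity, max_lt (by norm_num) hr21, ?_⟩
  have hev := (Lim_ev hη0 (show 0 < η * (c * Real.log 2) by positivity) y).natCast_atTop
  filter_upwards [hev, hz, eventually_ge_atTop 2] with n hn hzn hn2 S I hS hSz hI
  obtain ⟨hn1, g1, g2, g3, g4⟩ := hn.resolve_right (by linarith)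
  have hIc : #Iᶜ = n - (#S - 1) := by
    rw [Finset.card_compl, Fintype.card_fin, hI]
  rcases Nat.lt_or_ge n (50 * #S) with h50 | h50
  · -- large supports
    have hn0 : (0 : ℝ) < n := by linarith
    have hlog : 0 < Real.log n := Real.log_pos hn1
    obtain ⟨L, hL⟩ : ∃ L : ℕ, L = ⌈(n : ℝ) ^ (1 - η)⌉₊ := ⟨_, rfl⟩
    have hL1 : (n : ℝ) ^ (1 - η) ≤ L := by rw [hL]; exact Nat.le_ceil _
    have hL2 : (L : ℝ) ≤ 2 * (n : ℝ) ^ (1 - η) := by
      have := Nat.ceil_lt_add_one (Real.rpow_nonneg hn0.le (1 - η))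
      rw [← hL] at this
      linarith
    have hL3 : 1 ≤ L := by
      have : (1 : ℝ) ≤ L := g4.trans hL1
      exact_mod_cast this
    have hLS : L ≤ #S := by
      have h6 : (n : ℝ) < 50 * #S := by exact_mod_cast h50
      have h7 : (L : ℝ) ≤ #S := by linarith
      exact_mod_cast h7
    have hzr : (z n : ℝ) ≤ n - #S := by
      have : (#S : ℝ) + z n ≤ n := by exact_mod_cast hSz
      linarith
    have hlb : c * n / Real.logb 2 n = c * Real.log 2 * n / Real.log n := by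
      rw [Real.logb]
      field_simp
    rw [hlb, div_le_iff₀ hlog] at hzn
    have hzl : (z n : ℝ) * Real.log n ≤ (n - #S + 1) * Real.log n :=
      mul_le_mul_of_nonneg_right (by linarith) hlog.le
    have k1 : (L : ℝ) ≤ η * (n - #S + 1) := by
      have h8 : (L : ℝ) * Real.log n ≤ η * (n - #S + 1) * Real.log n := by
        have h9 := mul_le_mul_of_nonneg_right hL2 hlog.le
        have h10 := mul_le_mul_of_nonneg_left (hzn.trans hzl) hη0.le
        linarith
      exact le_of_mul_le_mul_right h8 hlog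
    have k2 : (1 - η) * Real.log n ≤ Real.log L := by
      rw [← Real.log_rpow hn0]
      exact Real.log_le_log (Real.rpow_pos_of_pos hn0 _) hL1
    have k4 : 2 * θ * Real.log 2 * n ≤ (n - #S + 1) * Real.log n := by
      refine le_trans (le_of_eq ?_) (hzn.trans hzl)
      rw [hθ]
      ring
    have hSn : #S ≤ n := by omega
    have key := caseB (k := #S) (by omega) hSn hL3 hlog.le hη0 (by linarith) hy0 rfl k1 k2 g3 k4
      h5 hxy hη1
    have hb := bet_le_w hL3 S Iᶜ hLS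
    rw [hIc] at hb
    refine (mul_le_mul_of_nonneg_left hb (by positivity)).trans (key.trans ?_)
    rw [← hr2]
    exact div_le_div_of_nonneg_right (pow_le_pow_left₀ hr20.le (le_max_right _ _) n)
      (by positivity)
  · have hb := bet_le_three S Iᶜ hS
    rw [hIc] at hb
    refine (mul_le_mul_of_nonneg_left hb (by positivity)).trans
      ((caseA (k := #S) (by omega) h50).trans ?_)
    exact div_le_div_of_nonneg_right (pow_le_pow_left₀ (by norm_num) (le_max_left _ _) n)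
      (by positivity)

end P160
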