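import Mathlib

/-! P160: extracting rows which determine the kernel. -/

namespace P160

open Finset

variable {n : ℕ}

/-- the common kernel of the functionals with index in `I`, in a subspace -/
def ker' (V : Submodule ℝ (Fin n → ℝ)) (φ : Fin n → (Fin n → ℝ) →ₗ[ℝ] ℝ) (I : Finset (Fin n)) :
    Submodule ℝ (Fin n → ℝ) where
  carrier := {u | u ∈ V ∧ ∀ i ∈ I, φ i u = 0}
  add_mem' := by
    rintro a b ⟨h1, h2⟩ ⟨h3, h4⟩
    exact ⟨V.add_mem h1 h3, fun i hi => by rw [map_add, h2 i hi, h4 i hi, add_zero]⟩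
  zero_mem' := ⟨V.zero_mem, fun i _ => map_zero _⟩
  smul_mem' := by
    rintro c a ⟨h1, h2⟩
    exact ⟨V.smul_mem c h1, fun i hi => by rw [map_smul, h2 i hi, smul_zero]⟩

theorem mem_ker' {V : Submodule ℝ (Fin n → ℝ)} {φ : Fin n → (Fin n → ℝ) →ₗ[ℝ] ℝ}
    {I : Finset (Fin n)} {u : Fin n → ℝ} : u ∈ ker' V φ I ↔ u ∈ V ∧ ∀ i ∈ I, φ i u = 0 :=
  Iff.rfl

theorem ker'_anti {V : Submodule ℝ (Fin n → ℝ)} {φ : Fin n → (Fin n → ℝ) →ₗ[ℝ] ℝ}
    {I I' : Finset (Fin n)} (h : I ⊆ I') : ker' V φ I' ≤ ker' V φ I :=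
  fun _ hu => ⟨hu.1, fun i hi => hu.2 i (h hi)⟩

/-- a small set of rows with the full kernel -/
theorem exists_rows (V : Submodule ℝ (Fin n → ℝ)) (φ : Fin n → (Fin n → ℝ) →ₗ[ℝ] ℝ) (d : ℕ) :
    ∀ I : Finset (Fin n), Module.finrank ℝ (ker' V φ I) ≤ d →
      ∃ I' : Finset (Fin n), #I' + Module.finrank ℝ (ker' V φ Finset.univ)
        ≤ #I + Module.finrank ℝ (ker' V φ I) ∧ ker' V φ I' = ker' V φ Finset.univ := by
  induction d with
  | zero =>
    intro I hI
    refine ⟨I, ?_, ?_⟩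
    · have := Submodule.finrank_mono (ker'_anti (V := V) (φ := φ) (Finset.subset_univ I))
      omega
    · have h1 : ker' V φ I = ⊥ := Submodule.finrank_eq_zero.1 (by omega)
      refine le_antisymm ?_ (ker'_anti (Finset.subset_univ I))
      rw [h1]
      exact bot_le
  | succ d ih =>
    intro I hI
    by_cases h : ker' V φ I = ker' V φ Finset.univ
    · exact ⟨I, by rw [h], h⟩
    · have h1 : ∃ i, ∃ u ∈ ker' V φ I, φ i u ≠ 0 := by
        by_contra h2
        push Not at h2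
        refine h (le_antisymm (fun u hu => ⟨hu.1, fun i _ => h2 i u hu⟩)
          (ker'_anti (Finset.subset_univ I)))
      obtain ⟨i, u, hu, hiu⟩ := h1
      have h3 : ker' V φ (insert i I) < ker' V φ I := by
        refine lt_of_le_of_ne (ker'_anti (Finset.subset_insert i I)) fun h4 => hiu ?_
        rw [← h4] at hu
        exact hu.2 i (Finset.mem_insert_self i I)
      have h5 := Submodule.finrank_lt_finrank_of_lt h3
      obtain ⟨I', h6, h7⟩ := ih (insert i I) (by omega)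
      refine ⟨I', ?_, h7⟩
      have h8 := Finset.card_insert_le i I
      omega

end P160
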