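import Vale.Agent.Lib.P160.Rho

/-! P160: the numerical estimates. -/

namespace P160

open Finset

/-- the double sum -/
theorem sum_bound {n z : ℕ} {T : ℝ} (hT : 0 ≤ T)
    (h : ∀ S I : Finset (Fin n), 3 ≤ #S → #S + z ≤ n → #I = #S - 1 →
      (n.choose #S : ℝ) * n.choose (#S - 1) * bet rho S Iᶜ ≤ T) :
    ∑ S ∈ (Finset.univ : Finset (Finset (Fin n))).filter (fun S => 3 ≤ #S ∧ #S + z ≤ n),
      ∑ I ∈ (Finset.univ : Finset (Finset (Fin n))).filter (fun I => #I = #S - 1),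
        bet rho S Iᶜ ≤ (n + 1) * T := by
  have h1 : ∀ S ∈ (Finset.univ : Finset (Finset (Fin n))).filter (fun S => 3 ≤ #S ∧ #S + z ≤ n),
      ∑ I ∈ (Finset.univ : Finset (Finset (Fin n))).filter (fun I => #I = #S - 1),
        bet rho S Iᶜ ≤ T / n.choose #S := by
    intro S hS
    rw [Finset.mem_filter] at hS
    have hSn : #S ≤ n := by omega
    have c1 : (0 : ℝ) < n.choose #S := by exact_mod_cast Nat.choose_pos hSn
    have c2 : (0 : ℝ) < n.choose (#S - 1) := by exact_mod_cast Nat.choose_pos (by omega)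
    have h2 : ∀ I ∈ (Finset.univ : Finset (Finset (Fin n))).filter (fun I => #I = #S - 1),
        bet rho S Iᶜ ≤ T / (n.choose #S * n.choose (#S - 1)) := by
      intro I hI
      rw [le_div_iff₀ (by positivity), mul_comm]
      exact h S I hS.2.1 hS.2.2 (Finset.mem_filter.1 hI).2
    refine (Finset.sum_le_card_nsmul _ _ _ h2).trans (le_of_eq ?_)
    have h3 : #((Finset.univ : Finset (Finset (Fin n))).filter (fun I => #I = #S - 1))
        = n.choose (#S - 1) := by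
      have := Finset.card_powersetCard (#S - 1) (Finset.univ : Finset (Fin n))
      rw [Finset.card_univ, Fintype.card_fin] at this
      rw [← this]
      congr 1
      ext I
      simp [Finset.mem_powersetCard]
    rw [h3, nsmul_eq_mul]
    field_simp
  refine (Finset.sum_le_sum h1).trans ?_
  have h4 : ∑ S ∈ (Finset.univ : Finset (Finset (Fin n))).filter (fun S => 3 ≤ #S ∧ #S + z ≤ n),
      T / (n.choose #S : ℝ) ≤ ∑ S ∈ (Finset.univ : Finset (Fin n)).powerset,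
        T / (n.choose #S : ℝ) := by
    rw [Finset.powerset_univ]
    refine Finset.sum_le_sum_of_subset_of_nonneg (Finset.filter_subset _ _) fun S _ _ => ?_
    positivity
  refine h4.trans (le_of_eq ?_)
  rw [Finset.sum_powerset_apply_card (fun m => T / (n.choose m : ℝ)), Finset.card_univ,
    Fintype.card_fin]
  have h5 : ∀ m ∈ Finset.range (n + 1), n.choose m • (T / (n.choose m : ℝ)) = T := by
    intro m hm
    have c1 : (0 : ℝ) < n.choose m := by
      exact_mod_cast Nat.choose_pos (Nat.lt_succ_iff.1 (Finset.mem_range.1 hm))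
    rw [nsmul_eq_mul]
    field_simp
  rw [Finset.sum_congr rfl h5, Finset.sum_const, Finset.card_range, nsmul_eq_mul]
  push_cast
  ring

theorem choose_le {x : ℝ} (hx : 0 < x) (n k : ℕ) : (n.choose k : ℝ) ≤ (1 + x) ^ n * (x⁻¹) ^ k := by
  rcases Nat.lt_or_ge n k with h | h
  · rw [Nat.choose_eq_zero_of_lt h, Nat.cast_zero]
    positivity
  · have h1 : x ^ k * 1 ^ (n - k) * (n.choose k : ℝ) ≤ (x + 1) ^ n := by
      rw [add_pow]
      exact Finset.single_le_sum (f := fun m => x ^ m * 1 ^ (n - m) * (n.choose m : ℝ))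
        (fun i _ => by positivity) (Finset.mem_range.2 (Nat.lt_succ_of_le h))
    rw [one_pow, mul_one] at h1
    rw [inv_pow, ← div_eq_mul_inv, le_div_iff₀ (by positivity), mul_comm, add_comm 1 x]
    exact h1

/-- small supports -/
theorem caseA {n k : ℕ} (hk : 1 ≤ k) (hkn : 50 * k ≤ n) :
    (n.choose k : ℝ) * n.choose (k - 1) * (16 / 9 * (3 / 8) ^ (n - (k - 1)))
      ≤ (49 / 50) ^ n / 2 ^ n := by
  obtain ⟨d, rfl⟩ : ∃ d, n = 50 * k + d := ⟨n - 50 * k, by omega⟩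
  set n := 50 * k + d with hn
  have h1 := choose_le (show (0 : ℝ) < 1 / 20 by norm_num) n k
  have h2 := choose_le (show (0 : ℝ) < 1 / 20 by norm_num) n (k - 1)
  have h3 : ((1 / 20 : ℝ)⁻¹) ^ (k - 1) ≤ ((1 / 20 : ℝ)⁻¹) ^ k :=
    pow_le_pow_right₀ (by norm_num) (by omega)
  have h4 : (n.choose (k - 1) : ℝ) ≤ (1 + 1 / 20) ^ n * ((1 / 20 : ℝ)⁻¹) ^ k :=
    h2.trans (mul_le_mul_of_nonneg_left h3 (by positivity))
  have h5 : (n.choose k : ℝ) * n.choose (k - 1)
      ≤ ((1 + 1 / 20) ^ n * ((1 / 20 : ℝ)⁻¹) ^ k) * ((1 + 1 / 20) ^ n * ((1 / 20 : ℝ)⁻¹) ^ k) :=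
    mul_le_mul h1 h4 (Nat.cast_nonneg _) (by positivity)
  have h6 : (16 / 9 * (3 / 8 : ℝ) ^ (n - (k - 1))) ≤ (3 / 8) ^ n * (8 / 3) ^ k := by
    have e1 : (3 / 8 : ℝ) ^ n * (8 / 3) ^ k = (3 / 8) ^ (n - k) := by
      have : n = (n - k) + k := by omega
      conv_lhs => rw [this, pow_add]
      rw [mul_assoc, ← mul_pow]
      norm_num
    have e2 : n - (k - 1) = (n - k) + 1 := by omega
    rw [e1, e2, pow_succ]
    have : (0 : ℝ) < (3 / 8) ^ (n - k) := by positivity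
    linarith
  refine (mul_le_mul h5 h6 (by positivity) (by positivity)).trans ?_
  rw [le_div_iff₀ (by positivity)]
  have e3 : (1 + 1 / 20 : ℝ) ^ n * ((1 / 20 : ℝ)⁻¹) ^ k * ((1 + 1 / 20) ^ n * ((1 / 20 : ℝ)⁻¹) ^ k)
      * ((3 / 8) ^ n * (8 / 3) ^ k) * 2 ^ n
      = ((1 + 1 / 20) * (1 + 1 / 20) * (3 / 8) * 2) ^ n * (20 * 20 * (8 / 3)) ^ k := by
    rw [mul_pow, mul_pow, mul_pow, mul_pow, mul_pow]
    norm_num
    ring
  rw [e3]
  have e4 : ((1 + 1 / 20 : ℝ) * (1 + 1 / 20) * (3 / 8) * 2) ^ n ≤ (49 / 50 * (17 / 20)) ^ n :=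
    pow_le_pow_left₀ (by norm_num) (by norm_num) n
  refine (mul_le_mul_of_nonneg_right e4 (by positivity)).trans ?_
  have e5 : (17 / 20 : ℝ) ^ n * (20 * 20 * (8 / 3)) ^ k ≤ 1 := by
    rw [hn, pow_add, pow_mul]
    have e6 : ((17 / 20 : ℝ) ^ 50) ^ k * (17 / 20) ^ d * (20 * 20 * (8 / 3)) ^ k
        = ((17 / 20 : ℝ) ^ 50 * (20 * 20 * (8 / 3))) ^ k * (17 / 20) ^ d := by
      rw [mul_pow ((17 / 20 : ℝ) ^ 50)]
      ring
    rw [e6]
    have e7 : ((17 / 20 : ℝ) ^ 50 * (20 * 20 * (8 / 3))) ^ k ≤ 1 :=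
      pow_le_one₀ (by positivity) (by norm_num)
    have e8 : (17 / 20 : ℝ) ^ d ≤ 1 := pow_le_one₀ (by norm_num) (by norm_num)
    calc _ ≤ (1 : ℝ) * 1 := mul_le_mul e7 e8 (by positivity) zero_le_one
      _ = 1 := one_mul 1
  rw [mul_pow, mul_assoc]
  exact (mul_le_mul_of_nonneg_left e5 (by positivity)).trans (le_of_eq (mul_one _))

/-- large supports -/
theorem caseB {n k L : ℕ} {η θ x y l : ℝ} (hk : 1 ≤ k) (hkn : k ≤ n) (hL : 1 ≤ L)
    (hl : 0 ≤ l) (hη : 0 < η) (hη1 : η ≤ 1) (hy : 0 ≤ y) (hx : x = Real.exp (-y))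
    (h1 : (L : ℝ) ≤ η * (n - k + 1)) (h2 : (1 - η) * l ≤ Real.log L) (h3 : y ≤ η / 4 * l)
    (h4 : 2 * θ * Real.log 2 * n ≤ (n - k + 1) * l) (h5 : (1 - 3 * η) * θ = (θ + 1) / 2)
    (h6 : 2 * x ≤ (θ - 1) / 4 * Real.log 2) (hη3 : 3 * η ≤ 1) :
    (n.choose k : ℝ) * n.choose (k - 1) * ((Real.sqrt L)⁻¹) ^ (n - (k - 1) - L)
      ≤ (Real.exp (-(Real.log 2 * ((θ - 1) / 4)))) ^ n / 2 ^ n := by
  have hx0 : 0 < x := by rw [hx]; exact Real.exp_pos _
  have hx1 : x ≤ 1 := by rw [hx]; exact Real.exp_le_one_iff.2 (by linarith)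
  have hL1 : (1 : ℝ) ≤ L := by exact_mod_cast hL
  have hLp : (0 : ℝ) < L := by linarith
  have hkn' : (k : ℝ) ≤ n := by exact_mod_cast hkn
  obtain ⟨N, hN⟩ : ∃ N : ℕ, N = n - (k - 1) := ⟨_, rfl⟩
  have hNr : (N : ℝ) = n - k + 1 := by
    rw [hN, Nat.cast_sub (by omega), Nat.cast_sub hk]
    push_cast
    ring
  have hxe : x⁻¹ = Real.exp y := by rw [hx, Real.exp_neg, inv_inv]
  have c1 : (n.choose k : ℝ) ≤ Real.exp (n * x) * Real.exp (y * N) := by
    rw [← Nat.choose_symm hkn]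
    refine (choose_le hx0 n (n - k)).trans ?_
    refine mul_le_mul ?_ ?_ (by positivity) (Real.exp_pos _).le
    · rw [Real.exp_nat_mul]
      exact pow_le_pow_left₀ (by positivity) (by linarith [Real.add_one_le_exp x]) n
    · rw [hxe, mul_comm y, Real.exp_nat_mul]
      exact pow_le_pow_right₀ (Real.one_le_exp hy) (by omega)
  have c2 : (n.choose (k - 1) : ℝ) ≤ Real.exp (n * x) * Real.exp (y * N) := by
    rw [← Nat.choose_symm (by omega : k - 1 ≤ n)]
    refine (choose_le hx0 n (n - (k - 1))).trans ?_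
    refine mul_le_mul ?_ ?_ (by positivity) (Real.exp_pos _).le
    · rw [Real.exp_nat_mul]
      exact pow_le_pow_left₀ (by positivity) (by linarith [Real.add_one_le_exp x]) n
    · rw [hxe, mul_comm y, Real.exp_nat_mul, hN]
  have hLN : L ≤ N := by
    have h7 : η * (n - k + 1) ≤ 1 * ((n : ℝ) - k + 1) :=
      mul_le_mul_of_nonneg_right hη1 (by linarith)
    have h8 : (L : ℝ) ≤ N := by
      rw [hNr]
      linarith
    exact_mod_cast h8
  have c3 : ((Real.sqrt L)⁻¹) ^ (n - (k - 1) - L)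
      = Real.exp (-((N - L) * (Real.log L / 2))) := by
    rw [← hN]
    have h8 : (Real.sqrt L)⁻¹ = Real.exp (-(Real.log L / 2)) := by
      rw [Real.exp_neg, ← Real.log_sqrt hLp.le, Real.exp_log (Real.sqrt_pos.2 hLp)]
    rw [h8, ← Real.exp_nat_mul, Nat.cast_sub hLN]
    congr 1
    ring
  rw [c3]
  have c4 : (Real.exp (-(Real.log 2 * ((θ - 1) / 4)))) ^ n / 2 ^ n
      = Real.exp (-(Real.log 2 * ((θ - 1) / 4) * n) - Real.log 2 * n) := by
    have e1 : Real.exp (Real.log 2 * n) = 2 ^ n := by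
      rw [mul_comm, Real.exp_nat_mul, Real.exp_log two_pos]
    have e2 : (Real.exp (-(Real.log 2 * ((θ - 1) / 4)))) ^ n
        = Real.exp (-(Real.log 2 * ((θ - 1) / 4) * n)) := by
      rw [← Real.exp_nat_mul]
      congr 1
      ring
    rw [e2, ← e1, Real.exp_sub]
  rw [c4]
  refine (mul_le_mul_of_nonneg_right (mul_le_mul c1 c2 (Nat.cast_nonneg _) (by positivity))
    (Real.exp_pos _).le).trans ?_
  rw [← Real.exp_add, ← Real.exp_add, ← Real.exp_add]
  refine Real.exp_le_exp.2 ?_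
  have hN0 : (0 : ℝ) ≤ N := Nat.cast_nonneg N
  rw [← hNr] at h1 h4
  have d1 : y * N ≤ η / 4 * (l * N) := by
    have := mul_le_mul_of_nonneg_right h3 hN0
    linarith
  have d2 : (1 - η) * N ≤ (N : ℝ) - L := by linarith
  have d3 : ((1 - η) * N) * ((1 - η) * l) ≤ (N - L) * Real.log L :=
    mul_le_mul d2 h2 (mul_nonneg (by linarith) hl) (by
      have : (L : ℝ) ≤ N := by exact_mod_cast hLN
      linarith)
  have d4 : (n : ℝ) * (2 * x) ≤ n * ((θ - 1) / 4 * Real.log 2) :=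
    mul_le_mul_of_nonneg_left h6 (Nat.cast_nonneg n)
  have d5 : (1 - 3 * η) * (2 * θ * Real.log 2 * n) ≤ (1 - 3 * η) * (N * l) :=
    mul_le_mul_of_nonneg_left h4 (by linarith)
  have d6 : (1 - 3 * η) * (2 * θ * Real.log 2 * n) = (θ + 1) * (Real.log 2 * n) := by
    linear_combination (2 * Real.log 2 * n) * h5
  have d7 : 0 ≤ η ^ 2 * (N * l) := by positivity
  nlinarith

end P160
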