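import Vale.Agent.Lib.P160.Count

/-! P160: two columns which agree up to sign. -/

namespace P160

open Finset

variable {n : ℕ}

/-- the columns `i` and `j` agree up to the sign `b` -/
def Ev (i j : Fin n) (b : Bool) (g : Sym2 (Fin n) → Bool) : Prop :=
  ∀ r, g s(r, i) = xor b (g s(r, j))

theorem Ev.symm {i j : Fin n} {b : Bool} {g : Sym2 (Fin n) → Bool} (h : Ev i j b g) :
    Ev j i b g := by
  intro r
  rw [h r]
  cases b <;> simp

/-- the entries which are determined by the others -/
def tr (i j : Fin n) (r : Fin n) : Sym2 (Fin n) := if r = i then s(i, i) else s(r, j)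

theorem tr_inj {i j : Fin n} (hij : i ≠ j) : Function.Injective (tr i j) := by
  intro r r' h
  unfold tr at h
  split_ifs at h with h1 h2 h2
  · rw [h1, h2]
  · rw [Sym2.eq_iff] at h
    rcases h with ⟨h3, h4⟩ | ⟨h3, h4⟩
    · exact absurd h4 hij
    · exact absurd h3 hij
  · rw [Sym2.eq_iff] at h
    rcases h with ⟨h3, h4⟩ | ⟨h3, h4⟩
    · exact absurd h4.symm hij
    · exact absurd h4.symm hij
  · rw [Sym2.eq_iff] at h
    rcases h with ⟨h3, h4⟩ | ⟨h3, h4⟩
    · exact h3
    · rw [h3, ← h4]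

theorem tr_ne1 {i j : Fin n} (hij : i ≠ j) {r : Fin n} (hr : r ≠ i) (r' : Fin n) :
    s(r, i) ≠ tr i j r' := by
  unfold tr
  split_ifs with h1
  · intro h
    rw [Sym2.eq_iff] at h
    rcases h with ⟨h3, h4⟩ | ⟨h3, h4⟩
    · exact hr h3
    · exact hr h3
  · intro h
    rw [Sym2.eq_iff] at h
    rcases h with ⟨h3, h4⟩ | ⟨h3, h4⟩
    · exact hij h4
    · exact h1 h4.symm

theorem tr_ne2 {i j : Fin n} (hij : i ≠ j) (r' : Fin n) : s(i, j) ≠ tr i j r' := by
  unfold tr
  split_ifs with h1
  · intro h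
    rw [Sym2.eq_iff] at h
    rcases h with ⟨h3, h4⟩ | ⟨h3, h4⟩
    · exact hij h4.symm
    · exact hij h4.symm
  · intro h
    rw [Sym2.eq_iff] at h
    rcases h with ⟨h3, h4⟩ | ⟨h3, h4⟩
    · exact h1 h3.symm
    · exact hij h3

open Classical in
theorem card_Ev_le {i j : Fin n} (hij : i ≠ j) (b : Bool) :
    (#{g : Sym2 (Fin n) → Bool | Ev i j b g} : ℝ)
      ≤ 2 ^ (Fintype.card (Sym2 (Fin n)) - n) := by
  have hT : #((Finset.univ.image (tr i j))ᶜ) = Fintype.card (Sym2 (Fin n)) - n := by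
    rw [Finset.card_compl, Finset.card_image_of_injective _ (tr_inj hij), Finset.card_univ,
      Fintype.card_fin]
  have h1 := card_cond {g : Sym2 (Fin n) → Bool | Ev i j b g} (Finset.univ.image (tr i j))ᶜ
    zero_le_one ?_
  · rwa [mul_one, hT] at h1
  · intro g0 hg0
    rw [Finset.mem_filter] at hg0
    have h2 : {g ∈ ({g : Sym2 (Fin n) → Bool | Ev i j b g} : Finset _) |
        ∀ x ∈ (Finset.univ.image (tr i j))ᶜ, g x = g0 x} ⊆ {g0} := by
      intro g hg
      rw [Finset.mem_filter, Finset.mem_filter] at hg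
      rw [Finset.mem_singleton]
      funext x
      have hoff : ∀ x, (∀ r, x ≠ tr i j r) → g x = g0 x := by
        intro x hx
        refine hg.2 x ?_
        rw [Finset.mem_compl, Finset.mem_image]
        rintro ⟨r, -, hr⟩
        exact hx r hr.symm
      by_cases hx : ∃ r, x = tr i j r
      · obtain ⟨r, rfl⟩ := hx
        unfold tr
        split_ifs with h3
        · rw [hg.1.2 i, hg0.2 i, hoff _ (tr_ne2 hij)]
        · have h4 := hg.1.2.symm r
          have h5 := hg0.2.symm r
          rw [h4, h5, hoff _ (tr_ne1 hij h3)]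
      · push Not at hx
        exact hoff x hx
    have h3 := Finset.card_le_card h2
    rw [Finset.card_singleton] at h3
    exact_mod_cast h3

open Classical in
/-- flip the bad entries -/
noncomputable def flp (i j : Fin n) (b : Bool) (g : Sym2 (Fin n) → Bool) (x : Sym2 (Fin n)) : Bool :=
  if ∃ r, x = tr i j r ∧ g s(r, i) ≠ xor b (g s(r, j)) then !(g x) else g x

theorem flp_off {i j : Fin n} {b : Bool} {g : Sym2 (Fin n) → Bool} {x : Sym2 (Fin n)}
    (hx : ∀ r, x ≠ tr i j r) : flp i j b g x = g x := by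
  unfold flp
  rw [if_neg]
  rintro ⟨r, hr, -⟩
  exact hx r hr

theorem flp_on {i j : Fin n} (hij : i ≠ j) {b : Bool} {g : Sym2 (Fin n) → Bool} (r : Fin n) :
    flp i j b g (tr i j r)
      = if g s(r, i) ≠ xor b (g s(r, j)) then !(g (tr i j r)) else g (tr i j r) := by
  unfold flp
  have h : (∃ r', tr i j r = tr i j r' ∧ g s(r', i) ≠ xor b (g s(r', j)))
      ↔ g s(r, i) ≠ xor b (g s(r, j)) := by
    constructor
    · rintro ⟨r', h1, h2⟩
      rwa [tr_inj hij h1]
    · intro h2
      exact ⟨r, rfl, h2⟩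
  by_cases h1 : g s(r, i) ≠ xor b (g s(r, j))
  · rw [if_pos (h.2 h1), if_pos h1]
  · rw [if_neg (fun h2 => h1 (h.1 h2)), if_neg h1]

theorem flp_Ev {i j : Fin n} (hij : i ≠ j) (b : Bool) (g : Sym2 (Fin n) → Bool) :
    Ev i j b (flp i j b g) := by
  intro r
  by_cases hr : r = i
  · subst hr
    have h1 : s(r, r) = tr r j r := by simp [tr]
    have h2 := flp_on hij (b := b) (g := g) r
    rw [← h1] at h2
    rw [h2, flp_off (tr_ne2 hij)]
    cases h3 : g s(r, r) <;> cases h4 : g s(r, j) <;> cases b <;> simp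
  · have h1 : s(r, j) = tr i j r := by simp [tr, hr]
    have h2 := flp_on hij (b := b) (g := g) r
    rw [← h1] at h2
    rw [h2, flp_off (tr_ne1 hij hr)]
    cases h3 : g s(r, i) <;> cases h4 : g s(r, j) <;> cases b <;> simp

open Classical in
theorem card_Ev_ge {i j : Fin n} (hij : i ≠ j) (b : Bool) :
    (2 : ℝ) ^ Fintype.card (Sym2 (Fin n))
      ≤ #{g : Sym2 (Fin n) → Bool | Ev i j b g} * 2 ^ n := by
  have hN : n ≤ Fintype.card (Sym2 (Fin n)) := by
    have h0 : #(Finset.univ.image (tr i j)) = n := by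
      rw [Finset.card_image_of_injective _ (tr_inj hij), Finset.card_univ, Fintype.card_fin]
    exact h0.symm.le.trans (Finset.card_le_univ _)
  have h1 := card_fib (Finset.univ : Finset (Sym2 (Fin n) → Bool))
    {g : Sym2 (Fin n) → Bool | Ev i j b g} (flp i j b) (fun g _ => by
      rw [Finset.mem_filter]
      exact ⟨Finset.mem_univ _, flp_Ev hij b g⟩) (b := 2 ^ n) ?_
  · rw [Finset.card_univ, Fintype.card_fun, Fintype.card_bool] at h1
    exact_mod_cast h1
  · intro y _
    have h2 := card_agree (Finset.univ.image (tr i j))ᶜ y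
    have h3 : Fintype.card (Sym2 (Fin n)) - #((Finset.univ.image (tr i j))ᶜ) = n := by
      rw [Finset.card_compl, Finset.card_image_of_injective _ (tr_inj hij), Finset.card_univ,
        Fintype.card_fin]
      omega
    rw [h3] at h2
    refine le_trans (Nat.cast_le.2 (Finset.card_le_card fun g hg => ?_)) h2
    rw [Finset.mem_filter] at hg ⊢
    refine ⟨Finset.mem_univ _, fun x hx => ?_⟩
    rw [← hg.2, flp_off]
    intro r hr
    rw [Finset.mem_compl, Finset.mem_image] at hx
    exact hx ⟨r, Finset.mem_univ _, hr.symm⟩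

open Classical in
/-- intersection of two events with different pairs of columns -/
theorem card_Ev_inter {i j a a' : Fin n} (hij : i ≠ j) (haa : a ≠ a') (hai : a ≠ i) (haj : a ≠ j)
    (b c : Bool) :
    (#{g : Sym2 (Fin n) → Bool | Ev i j b g ∧ Ev a a' c g} : ℝ) * 4 ^ (n - 4)
      ≤ 2 ^ Fintype.card (Sym2 (Fin n)) := by
  set Z : Finset (Fin n) := {i, j, a, a'} with hZ
  have hi : i ∈ Z := by simp [hZ]
  have hj : j ∈ Z := by simp [hZ]
  have ha : a ∈ Z := by simp [hZ]
  have hZc : n - 4 ≤ #Zᶜ := by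
    rw [Finset.card_compl, Fintype.card_fin]
    have : #Z ≤ 4 := Finset.card_le_four
    omega
  set T1 : Finset (Sym2 (Fin n)) := Zᶜ.image fun r => s(r, i) with hT1
  set T2 : Finset (Sym2 (Fin n)) := Zᶜ.image fun r => s(r, a) with hT2
  have c1 : #T1 = #Zᶜ := by
    refine Finset.card_image_of_injOn fun r hr r' _ h => ?_
    simp only [Sym2.eq_iff] at h
    rcases h with ⟨h3, h4⟩ | ⟨h3, h4⟩
    · exact h3
    · rw [h3, ← h4]
  have c2 : #T2 = #Zᶜ := by
    refine Finset.card_image_of_injOn fun r hr r' _ h => ?_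
    simp only [Sym2.eq_iff] at h
    rcases h with ⟨h3, h4⟩ | ⟨h3, h4⟩
    · exact h3
    · rw [h3, ← h4]
  have hdis : Disjoint T1 T2 := by
    rw [Finset.disjoint_left]
    intro x hx hx'
    rw [hT1, Finset.mem_image] at hx
    rw [hT2, Finset.mem_image] at hx'
    obtain ⟨r, hr, rfl⟩ := hx
    obtain ⟨r', hr', h⟩ := hx'
    rw [Sym2.eq_iff] at h
    rcases h with ⟨h3, h4⟩ | ⟨h3, h4⟩
    · exact hai h4
    · rw [h3] at hr'
      exact (Finset.mem_compl.1 hr') hi
  have hcT : #(T1 ∪ T2) = 2 * #Zᶜ := by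
    rw [Finset.card_union_of_disjoint hdis, c1, c2]
    ring
  have hcT' : 2 * #Zᶜ ≤ Fintype.card (Sym2 (Fin n)) := by
    rw [← hcT]
    exact Finset.card_le_univ _
  have h1 := card_cond {g : Sym2 (Fin n) → Bool | Ev i j b g ∧ Ev a a' c g} (T1 ∪ T2)ᶜ
    zero_le_one ?_
  · rw [mul_one, Finset.card_compl, hcT] at h1
    refine (mul_le_mul_of_nonneg_right h1 (by positivity)).trans ?_
    have e : (4 : ℝ) ^ (n - 4) = 2 ^ (2 * (n - 4)) := by
      rw [pow_mul]
      norm_num
    rw [e, ← pow_add]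
    refine pow_le_pow_right₀ (by norm_num) ?_
    omega
  · intro g0 hg0
    rw [Finset.mem_filter] at hg0
    have h2 : {g ∈ ({g : Sym2 (Fin n) → Bool | Ev i j b g ∧ Ev a a' c g} : Finset _) |
        ∀ x ∈ (T1 ∪ T2)ᶜ, g x = g0 x} ⊆ {g0} := by
      intro g hg
      rw [Finset.mem_filter, Finset.mem_filter] at hg
      rw [Finset.mem_singleton]
      have hoff : ∀ x, x ∉ T1 → x ∉ T2 → g x = g0 x := by
        intro x hx hx'
        refine hg.2 x ?_
        rw [Finset.mem_compl, Finset.mem_union]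
        rintro (h | h)
        · exact hx h
        · exact hx' h
      have key : ∀ r ∉ Z, ∀ w, w ≠ i → w ≠ a → g s(r, w) = g0 s(r, w) := by
        intro r hr w hwi hwa
        refine hoff _ ?_ ?_
        · rw [hT1, Finset.mem_image]
          rintro ⟨r', hr', h⟩
          rw [Sym2.eq_iff] at h
          rcases h with ⟨h3, h4⟩ | ⟨h3, h4⟩
          · exact hwi h4.symm
          · exact hr (h4 ▸ hi)
        · rw [hT2, Finset.mem_image]
          rintro ⟨r', hr', h⟩
          rw [Sym2.eq_iff] at h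
          rcases h with ⟨h3, h4⟩ | ⟨h3, h4⟩
          · exact hwa h4.symm
          · exact hr (h4 ▸ ha)
      have k1 : ∀ r ∉ Z, g s(r, i) = g0 s(r, i) := by
        intro r hr
        rw [hg.1.2.1 r, hg0.2.1 r, key r hr j (Ne.symm hij) (Ne.symm haj)]
      have k2 : ∀ r ∉ Z, g s(r, a) = g0 s(r, a) := by
        intro r hr
        rw [hg.1.2.2 r, hg0.2.2 r]
        by_cases h : a' = i
        · rw [h, k1 r hr]
        · rw [key r hr a' h (Ne.symm haa)]
      funext x
      by_cases hx : x ∈ T1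
      · rw [hT1, Finset.mem_image] at hx
        obtain ⟨r, hr, rfl⟩ := hx
        exact k1 r (Finset.mem_compl.1 hr)
      · by_cases hx' : x ∈ T2
        · rw [hT2, Finset.mem_image] at hx'
          obtain ⟨r, hr, rfl⟩ := hx'
          exact k2 r (Finset.mem_compl.1 hr)
        · exact hoff x hx hx'
    have h3 := Finset.card_le_card h2
    rw [Finset.card_singleton] at h3
    exact_mod_cast h3

end P160
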