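import Vale.Agent.Lib.P160.Count

/-! P160: revealing a symmetric matrix row by row. -/

namespace P160

open Finset

variable {n : ℕ}

/-- replace the values on `J` -/
def ext (J : Finset (Fin n)) (τ : J → Bool) (τ0 : Fin n → Bool) (j : Fin n) : Bool :=
  if h : j ∈ J then τ ⟨j, h⟩ else τ0 j

/-- row `r` -/
def row (g : Sym2 (Fin n) → Bool) (r : Fin n) (j : Fin n) : Bool := g s(r, j)

/-- entries `s(i, j)` with `i ∉ Q`, `j ∈ S` -/
def Dt (S Q : Finset (Fin n)) : Finset (Sym2 (Fin n)) :=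
  Finset.univ.filter fun x => ∃ i, i ∉ Q ∧ ∃ j ∈ S, x = s(i, j)

/-- new entries of the row `i` -/
def Jn (S Q : Finset (Fin n)) (i : Fin n) : Finset (Fin n) := S.filter fun j => s(i, j) ∉ Dt S Q

theorem mem_Dt_row {S Q : Finset (Fin n)} {i j : Fin n} (hi : i ∈ Q) :
    s(i, j) ∈ Dt S Q ↔ i ∈ S ∧ j ∉ Q := by
  unfold Dt
  rw [Finset.mem_filter]
  constructor
  · rintro ⟨-, i', hi', j', hj', h⟩
    rw [Sym2.eq_iff] at h
    rcases h with ⟨h1, h2⟩ | ⟨h1, h2⟩
    · exact absurd (h1 ▸ hi) hi'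
    · exact ⟨h1 ▸ hj', h2 ▸ hi'⟩
  · rintro ⟨h1, h2⟩
    exact ⟨Finset.mem_univ _, j, h2, i, h1, Sym2.eq_swap⟩

theorem card_Jn {S Q : Finset (Fin n)} {i : Fin n} (hi : i ∈ Q) :
    #(Jn S Q i) = if i ∈ S then #(Q ∩ S) else #S := by
  split_ifs with h
  · congr 1
    ext j
    rw [Jn, Finset.mem_filter, Finset.mem_inter]
    constructor
    · rintro ⟨h1, h2⟩
      rw [mem_Dt_row hi] at h2
      refine ⟨?_, h1⟩
      by_contra h3
      exact h2 ⟨h, h3⟩
    · rintro ⟨h1, h2⟩
      refine ⟨h2, ?_⟩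
      rw [mem_Dt_row hi]
      exact fun h3 => h3.2 h1
  · congr 1
    rw [Jn, Finset.filter_eq_self]
    intro j hj
    rw [mem_Dt_row hi]
    exact fun h3 => h h3.1

theorem Dt_step {S Q : Finset (Fin n)} {i : Fin n} (hi : i ∉ Q) :
    Dt S Q = Dt S (insert i Q) ∪ (Jn S (insert i Q) i).image (fun j => s(i, j)) := by
  ext x
  rw [Finset.mem_union, Finset.mem_image]
  constructor
  · intro hx
    by_cases h : x ∈ Dt S (insert i Q)
    · exact Or.inl h
    · refine Or.inr ?_
      unfold Dt at hx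
      rw [Finset.mem_filter] at hx
      obtain ⟨-, i', hi', j, hj, rfl⟩ := hx
      have h1 : i' = i := by
        by_contra h2
        apply h
        unfold Dt
        rw [Finset.mem_filter]
        refine ⟨Finset.mem_univ _, i', ?_, j, hj, rfl⟩
        rw [Finset.mem_insert]
        push Not
        exact ⟨h2, hi'⟩
      subst h1
      refine ⟨j, ?_, rfl⟩
      rw [Jn, Finset.mem_filter]
      exact ⟨hj, h⟩
  · rintro (hx | ⟨j, hj, rfl⟩)
    · unfold Dt at hx ⊢
      rw [Finset.mem_filter] at hx ⊢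
      obtain ⟨-, i', hi', j, hj, rfl⟩ := hx
      rw [Finset.mem_insert] at hi'
      push Not at hi'
      exact ⟨Finset.mem_univ _, i', hi'.2, j, hj, rfl⟩
    · rw [Jn, Finset.mem_filter] at hj
      unfold Dt
      rw [Finset.mem_filter]
      exact ⟨Finset.mem_univ _, i, hi, j, hj.1, rfl⟩

theorem card_Dt_step {S Q : Finset (Fin n)} {i : Fin n} (hi : i ∉ Q) :
    #(Dt S Q) = #(Dt S (insert i Q)) + #(Jn S (insert i Q) i) := by
  rw [Dt_step hi, Finset.card_union_of_disjoint, Finset.card_image_of_injective]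
  · intro j j' h
    simp only [Sym2.eq_iff, true_and] at h
    rcases h with h | ⟨h1, h2⟩
    · exact h
    · rw [h2, h1]
  · rw [Finset.disjoint_left]
    intro x hx hx'
    rw [Finset.mem_image] at hx'
    obtain ⟨j, hj, rfl⟩ := hx'
    rw [Jn, Finset.mem_filter] at hj
    exact hj.2 hx

/-- the bound for the rows in `Q` -/
noncomputable def bet (θ : ℕ → ℝ) (S Q : Finset (Fin n)) : ℝ :=
  (∏ l ∈ Finset.range #(Q ∩ S), θ (l + 1)) * θ #S ^ #(Q \ S)

theorem bet_step {θ : ℕ → ℝ} {S Q : Finset (Fin n)} {i : Fin n} (hi : i ∉ Q) :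
    bet θ S (insert i Q) = θ #(Jn S (insert i Q) i) * bet θ S Q := by
  rw [card_Jn (Finset.mem_insert_self i Q)]
  unfold bet
  split_ifs with h
  · have h1 : insert i Q ∩ S = insert i (Q ∩ S) := by
      rw [Finset.insert_inter_of_mem h]
    have h2 : insert i Q \ S = Q \ S := Finset.insert_sdiff_of_mem _ h
    rw [h1, h2, Finset.card_insert_of_notMem (by simp [hi]), Finset.prod_range_succ]
    ring
  · have h1 : insert i Q ∩ S = Q ∩ S := by
      rw [Finset.insert_inter_of_notMem h]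
    have h2 : insert i Q \ S = insert i (Q \ S) := Finset.insert_sdiff_of_notMem _ h
    rw [h1, h2, Finset.card_insert_of_notMem (by simp [hi]), pow_succ]
    ring

open Classical in
/-- **Revealing the rows of `Q`.** -/
theorem peel (S : Finset (Fin n)) (P : Fin n → (Fin n → Bool) → Prop) (θ : ℕ → ℝ)
    (hP : ∀ r τ τ', (∀ j ∈ S, τ j = τ' j) → P r τ → P r τ')
    (hθ : ∀ r, ∀ J ⊆ S, ∀ τ0 : Fin n → Bool,
      (#{τ : J → Bool | P r (ext J τ τ0)} : ℝ) ≤ θ #J * 2 ^ #J)
    (hθ0 : ∀ l, 0 ≤ θ l) (Q : Finset (Fin n)) :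
    ∀ g0 : Sym2 (Fin n) → Bool,
      (#{g : Sym2 (Fin n) → Bool | (∀ x ∈ Dt S Q, g x = g0 x) ∧ ∀ r ∈ Q, P r (row g r)} : ℝ)
        ≤ bet θ S Q * 2 ^ (Fintype.card (Sym2 (Fin n)) - #(Dt S Q)) := by
  induction Q using Finset.induction_on with
  | empty =>
    intro g0
    have h1 : bet θ S (∅ : Finset (Fin n)) = 1 := by simp [bet]
    rw [h1, one_mul]
    refine le_trans ?_ (card_agree (Dt S ∅) g0)
    refine Nat.cast_le.2 (Finset.card_le_card fun g hg => ?_)
    rw [Finset.mem_filter] at hg ⊢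
    exact ⟨hg.1, hg.2.1⟩
  | insert i Q hi ih =>
    intro g0
    have hb0 : 0 ≤ bet θ S Q := by
      unfold bet
      exact mul_nonneg (Finset.prod_nonneg fun l _ => hθ0 _) (pow_nonneg (hθ0 _) _)
    set J := Jn S (insert i Q) i with hJ
    have hJS : J ⊆ S := Finset.filter_subset _ _
    have hcard : #(Dt S Q) = #(Dt S (insert i Q)) + #J := card_Dt_step hi
    have hle : #(Dt S Q) ≤ Fintype.card (Sym2 (Fin n)) := Finset.card_le_univ _
    have h1 := card_fib
      {g : Sym2 (Fin n) → Bool | (∀ x ∈ Dt S (insert i Q), g x = g0 x) ∧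
        ∀ r ∈ insert i Q, P r (row g r)}
      {τ : J → Bool | P i (ext J τ (row g0 i))} (fun g (j : J) => g s(i, j)) ?_
      (b := bet θ S Q * 2 ^ (Fintype.card (Sym2 (Fin n)) - #(Dt S Q))) ?_
    · refine h1.trans ?_
      have h2 := hθ i J hJS (row g0 i)
      have h3 : (0 : ℝ) ≤ bet θ S Q * 2 ^ (Fintype.card (Sym2 (Fin n)) - #(Dt S Q)) := by
        positivity
      refine (mul_le_mul_of_nonneg_right h2 h3).trans (le_of_eq ?_)
      rw [bet_step hi, ← hJ]
      have h4 : Fintype.card (Sym2 (Fin n)) - #(Dt S (insert i Q))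
          = #J + (Fintype.card (Sym2 (Fin n)) - #(Dt S Q)) := by omega
      rw [h4, pow_add]
      ring
    · intro g hg
      rw [Finset.mem_filter] at hg ⊢
      refine ⟨Finset.mem_univ _, ?_⟩
      refine hP i _ _ (fun j hj => ?_) (hg.2.2 i (Finset.mem_insert_self i Q))
      unfold ext row
      split_ifs with h5
      · rfl
      · have h6 : s(i, j) ∈ Dt S (insert i Q) := by
          by_contra h7
          exact h5 (by rw [hJ, Jn, Finset.mem_filter]; exact ⟨hj, h7⟩)
        exact hg.2.1 _ h6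
    · intro τ _
      rcases Finset.eq_empty_or_nonempty
        (({g : Sym2 (Fin n) → Bool | (∀ x ∈ Dt S (insert i Q), g x = g0 x) ∧
          ∀ r ∈ insert i Q, P r (row g r)} : Finset _).filter
            fun g => (fun (j : J) => g s(i, (j : Fin n))) = τ) with h0 | ⟨g1, hg1⟩
      · rw [h0, Finset.card_empty, Nat.cast_zero]
        positivity
      · rw [Finset.mem_filter, Finset.mem_filter] at hg1
        refine le_trans ?_ (ih g1)
        refine Nat.cast_le.2 (Finset.card_le_card fun g hg => ?_)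
        rw [Finset.mem_filter, Finset.mem_filter] at hg
        rw [Finset.mem_filter]
        refine ⟨Finset.mem_univ _, fun x hx => ?_, fun r hr =>
          hg.1.2.2 r (Finset.mem_insert_of_mem hr)⟩
        rw [Dt_step hi, Finset.mem_union, Finset.mem_image] at hx
        rcases hx with hx | ⟨j, hj, rfl⟩
        · rw [hg.1.2.1 x hx, hg1.1.2.1 x hx]
        · exact (congrFun hg.2 ⟨j, hj⟩).trans (congrFun hg1.2 ⟨j, hj⟩).symm

end P160
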