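import Mathlib

/-! P160: the exponential rate of a sum. -/

namespace P160

open Filter Topology

theorem rate_two : Tendsto (fun n : ℕ => (2 : ℝ) ^ (1 / (n : ℝ))) atTop (𝓝 1) := by
  have h1 : Tendsto (fun n : ℕ => 1 / (n : ℝ)) atTop (𝓝 0) := tendsto_one_div_atTop_nhds_zero_nat
  have h2 : Tendsto (fun x : ℝ => (2 : ℝ) ^ x) (𝓝 0) (𝓝 ((2 : ℝ) ^ (0 : ℝ))) :=
    (Real.continuousAt_const_rpow (by norm_num : (2 : ℝ) ≠ 0)).tendsto
  rw [Real.rpow_zero] at h2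
  exact h2.comp h1

theorem rate_sq : Tendsto (fun n : ℕ => ((n : ℝ) ^ 2 / 2 ^ n) ^ (1 / (n : ℝ))) atTop
    (𝓝 (1 / 2)) := by
  have h1 : Tendsto (fun n : ℕ => (n : ℝ) ^ ((1 : ℝ) / (n : ℝ))) atTop (𝓝 1) :=
    tendsto_rpow_div.comp tendsto_natCast_atTop_atTop
  have h2 := (h1.pow 2).div_const (2 : ℝ)
  rw [one_pow] at h2
  refine h2.congr' ?_
  filter_upwards [eventually_ge_atTop 1] with n hn
  have hn0 : (0 : ℝ) ≤ n := Nat.cast_nonneg n
  rw [Real.div_rpow (by positivity) (by positivity)]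
  congr 1
  · rw [← Real.rpow_natCast, ← Real.rpow_natCast, ← Real.rpow_mul hn0, ← Real.rpow_mul hn0,
      mul_comm]
  · rw [one_div, Real.pow_rpow_inv_natCast (by norm_num) (by omega)]

/-- a sequence at exponentially small distance from `n (n - 1) / 2 ^ n` has rate `1 / 2` -/
theorem rate_half {p : ℕ → ℝ} {κ : ℝ} (hκ0 : 0 < κ) (hκ : κ < 1 / 2)
    (hp : ∀ᶠ n : ℕ in atTop, |p n - n * (n - 1) / 2 ^ n| ≤ κ ^ n) :
    (∀ᶠ n : ℕ in atTop, 0 ≤ p n) ∧ Tendsto (fun n : ℕ => p n ^ (1 / (n : ℝ))) atTop (𝓝 (1 / 2)) := by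
  have h1 : ∀ᶠ n : ℕ in atTop, (1 / 2 : ℝ) ^ n ≤ p n ∧ p n ≤ (n : ℝ) ^ 2 / 2 ^ n := by
    filter_upwards [hp, eventually_ge_atTop 2] with n h1 h2
    have hn2 : (2 : ℝ) ≤ n := by exact_mod_cast h2
    have hpow : (0 : ℝ) < 2 ^ n := by positivity
    have h3 : κ ^ n ≤ (1 / 2) ^ n := pow_le_pow_left₀ hκ0.le hκ.le n
    have h4 := abs_le.1 h1
    have h5 : (1 / 2 : ℝ) ^ n = 1 / 2 ^ n := one_div_pow 2 n
    have h6 : 2 * (1 / 2 ^ n : ℝ) ≤ n * (n - 1) / 2 ^ n := by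
      rw [mul_one_div]
      exact div_le_div_of_nonneg_right (by nlinarith) hpow.le
    have h7 : n * (n - 1) / 2 ^ n + 1 / 2 ^ n ≤ (n : ℝ) ^ 2 / 2 ^ n := by
      rw [← add_div]
      exact div_le_div_of_nonneg_right (by nlinarith) hpow.le
    rw [h5] at h3 ⊢
    constructor
    · linarith [h4.1]
    · linarith [h4.2]
  refine ⟨h1.mono fun n hn => le_trans (by positivity) hn.1, ?_⟩
  refine tendsto_of_tendsto_of_tendsto_of_le_of_le' tendsto_const_nhds rate_sq ?_ ?_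
  · filter_upwards [h1, eventually_ge_atTop 1] with n h2 h3
    have h8 := Real.rpow_le_rpow (by positivity) h2.1 (show 0 ≤ 1 / (n : ℝ) by positivity)
    rwa [one_div (n : ℝ), Real.pow_rpow_inv_natCast (by norm_num) (by omega),
      ← one_div (n : ℝ)] at h8
  · filter_upwards [h1] with n h2
    exact Real.rpow_le_rpow (le_trans (by positivity) h2.1) h2.2
      (show 0 ≤ 1 / (n : ℝ) by positivity)

/-- the rate of a sum is the maximum of the rates -/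
theorem rate_max {q p r : ℕ → ℝ} (hq : ∀ n, q n = p n + r n) (hp : ∀ᶠ n : ℕ in atTop, 0 ≤ p n)
    (hr : ∀ n, 0 ≤ r n) (hr1 : ∀ n, r n ≤ 1)
    (hlim : Tendsto (fun n : ℕ => p n ^ (1 / (n : ℝ))) atTop (𝓝 (1 / 2))) :
    Tendsto (fun n : ℕ => q n ^ (1 / (n : ℝ)) - max (1 / 2) (r n ^ (1 / (n : ℝ)))) atTop (𝓝 0) := by
  have h1 : Tendsto (fun n : ℕ => |p n ^ (1 / (n : ℝ)) - 1 / 2|) atTop (𝓝 0) := by
    have h2 := (hlim.sub_const (1 / 2)).abs
    rwa [sub_self, abs_zero] at h2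
  have h2 : Tendsto (fun n : ℕ => -|p n ^ (1 / (n : ℝ)) - 1 / 2|) atTop (𝓝 0) := by
    have h3 := h1.neg
    rwa [neg_zero] at h3
  have h3 : Tendsto (fun n : ℕ => ((2 : ℝ) ^ (1 / (n : ℝ)) - 1) * max (p n ^ (1 / (n : ℝ))) 1
      + |p n ^ (1 / (n : ℝ)) - 1 / 2|) atTop (𝓝 0) := by
    have h4 := ((rate_two.sub_const 1).mul (hlim.max (tendsto_const_nhds (x := (1 : ℝ))))).add h1
    rw [sub_self, zero_mul, add_zero] at h4
    exact h4
  refine tendsto_of_tendsto_of_tendsto_of_le_of_le' h2 h3 ?_ ?_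
  · filter_upwards [hp] with n hpn
    have he : 0 ≤ 1 / (n : ℝ) := by positivity
    have h4 : max (p n ^ (1 / (n : ℝ))) (r n ^ (1 / (n : ℝ))) ≤ q n ^ (1 / (n : ℝ)) := by
      refine max_le ?_ ?_
      · exact Real.rpow_le_rpow hpn (by rw [hq]; linarith [hr n]) he
      · exact Real.rpow_le_rpow (hr n) (by rw [hq]; linarith) he
    have h5 := abs_max_sub_max_le_abs (p n ^ (1 / (n : ℝ))) (1 / 2) (r n ^ (1 / (n : ℝ)))
    have h6 := (abs_le.1 h5).1
    linarith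
  · filter_upwards [hp] with n hpn
    have he : 0 ≤ 1 / (n : ℝ) := by positivity
    have hm : 0 ≤ max (p n) (r n) := le_max_of_le_left hpn
    have h4 : q n ^ (1 / (n : ℝ)) ≤
        (2 : ℝ) ^ (1 / (n : ℝ)) * max (p n ^ (1 / (n : ℝ))) (r n ^ (1 / (n : ℝ))) := by
      have h5 : q n ≤ 2 * max (p n) (r n) := by
        rw [hq, two_mul]
        exact add_le_add (le_max_left _ _) (le_max_right _ _)
      have h6 : 0 ≤ q n := by
        rw [hq]
        exact add_nonneg hpn (hr n)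
      refine (Real.rpow_le_rpow h6 h5 he).trans ?_
      rw [Real.mul_rpow (by norm_num) hm]
      refine mul_le_mul_of_nonneg_left ?_ (by positivity)
      rcases le_total (p n) (r n) with h | h
      · rw [max_eq_right h]
        exact le_max_right _ _
      · rw [max_eq_left h]
        exact le_max_left _ _
    have h5 := abs_max_sub_max_le_abs (p n ^ (1 / (n : ℝ))) (1 / 2) (r n ^ (1 / (n : ℝ)))
    have h6 := (abs_le.1 h5).2
    have h7 : r n ^ (1 / (n : ℝ)) ≤ 1 := Real.rpow_le_one (hr n) (hr1 n) he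
    have h8 : max (p n ^ (1 / (n : ℝ))) (r n ^ (1 / (n : ℝ))) ≤ max (p n ^ (1 / (n : ℝ))) 1 :=
      max_le_max le_rfl h7
    have h9 : (1 : ℝ) ≤ 2 ^ (1 / (n : ℝ)) := Real.one_le_rpow (by norm_num) he
    have h10 : ((2 : ℝ) ^ (1 / (n : ℝ)) - 1) * max (p n ^ (1 / (n : ℝ))) (r n ^ (1 / (n : ℝ)))
        ≤ ((2 : ℝ) ^ (1 / (n : ℝ)) - 1) * max (p n ^ (1 / (n : ℝ))) 1 :=
      mul_le_mul_of_nonneg_left h8 (by linarith)
    linarith

end P160
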