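import Vale.Agent.Lib.P160.Struct

/-! P160: bounds for the Littlewood-Offord ratio. -/

namespace P160

open Finset

/-- the even ratios -/
private noncomputable def cb (j : ℕ) : ℝ := (Nat.centralBinom j : ℝ) / 4 ^ j

private theorem cb_succ (j : ℕ) : cb (j + 1) * (2 * j + 2) = cb j * (2 * j + 1) := by
  have h := Nat.succ_mul_centralBinom_succ j
  have h' : ((j : ℝ) + 1) * (Nat.centralBinom (j + 1) : ℝ)
      = 2 * (2 * j + 1) * (Nat.centralBinom j : ℝ) := by exact_mod_cast h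
  unfold cb
  rw [pow_succ]
  field_simp
  linarith

private theorem cb_pos (j : ℕ) : 0 < cb j := by
  unfold cb
  have := Nat.centralBinom_pos j
  positivity

private theorem cb_anti (j : ℕ) : cb (j + 1) ≤ cb j := by
  have h := cb_succ j
  have h1 := cb_pos j
  have h2 : (0 : ℝ) ≤ j := Nat.cast_nonneg j
  have h3 : cb (j + 1) * (2 * j + 2) ≤ cb j * (2 * j + 2) := by
    rw [h]
    nlinarith
  exact le_of_mul_le_mul_right h3 (by positivity)

private theorem cb_sq (j : ℕ) : (2 * j + 1) * cb j ^ 2 ≤ 1 := by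
  induction j with
  | zero => simp [cb]
  | succ j ih =>
    have h := cb_succ j
    have h2 : (0 : ℝ) ≤ j := Nat.cast_nonneg j
    have h3 : (cb (j + 1) * (2 * j + 2)) ^ 2 = cb j ^ 2 * (2 * j + 1) ^ 2 := by rw [h]; ring
    have h4 : ((2 * (j + 1) + 1) * cb (j + 1) ^ 2) * (2 * (j : ℝ) + 2) ^ 2
        ≤ 1 * (2 * (j : ℝ) + 2) ^ 2 := by
      have e : ((2 * (j + 1) + 1) * cb (j + 1) ^ 2) * (2 * (j : ℝ) + 2) ^ 2
          = (2 * j + 3) * (2 * j + 1) * ((2 * j + 1) * cb j ^ 2) := by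
        linear_combination (2 * (j : ℝ) + 3) * h3
      rw [e]
      have h5 : (2 * (j : ℝ) + 3) * (2 * j + 1) * ((2 * j + 1) * cb j ^ 2)
          ≤ (2 * j + 3) * (2 * j + 1) * 1 := mul_le_mul_of_nonneg_left ih (by positivity)
      nlinarith
    have h6 := le_of_mul_le_mul_right h4 (by positivity)
    push_cast
    exact h6

private theorem cb_two : cb 2 = 3 / 8 := by
  have h0 : cb 0 = 1 := by simp [cb]
  have h1 := cb_succ 0
  have h2 := cb_succ 1
  rw [h0] at h1
  norm_num at h1 h2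
  linarith

private theorem cb_one : cb 1 = 1 / 2 := by
  have h0 : cb 0 = 1 := by simp [cb]
  have h1 := cb_succ 0
  rw [h0] at h1
  norm_num at h1
  linarith

private theorem cb_le (j : ℕ) : cb (j + 2) ≤ 3 / 8 := by
  induction j with
  | zero => exact cb_two.le
  | succ j ih => exact (cb_anti _).trans ih

private theorem rho_even (j : ℕ) : rho (2 * j) = cb j := by
  unfold rho cb
  rw [Nat.centralBinom_eq_two_mul_choose, Nat.mul_div_cancel_left j two_pos, pow_mul]
  norm_num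

private theorem rho_odd (j : ℕ) : rho (2 * j + 1) = cb (j + 1) := by
  unfold rho cb
  have h1 : (2 * j + 1) / 2 = j := by omega
  have h2 : (Nat.centralBinom (j + 1)) = 2 * (2 * j + 1).choose j := by
    rw [Nat.centralBinom_eq_two_mul_choose]
    have h3 : 2 * (j + 1) = (2 * j + 1) + 1 := by ring
    rw [h3, Nat.choose_succ_succ' (2 * j + 1) j]
    have h4 : (2 * j + 1).choose (j + 1) = (2 * j + 1).choose j := by
      rw [← Nat.choose_symm_half]
    omega
  rw [h1, h2]
  push_cast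
  rw [pow_succ, pow_succ, pow_mul]
  norm_num
  field_simp
  ring

theorem rho_pos (l : ℕ) : 0 < rho l := by
  obtain ⟨j, rfl | rfl⟩ := Nat.even_or_odd' l
  · rw [rho_even]; exact cb_pos j
  · rw [rho_odd]; exact cb_pos _

theorem rho_sq (l : ℕ) : l * rho l ^ 2 ≤ 1 := by
  obtain ⟨j, rfl | rfl⟩ := Nat.even_or_odd' l
  · rw [rho_even]
    have h1 := cb_sq j
    have h2 := sq_nonneg (cb j)
    push_cast
    linarith
  · rw [rho_odd]
    have h1 := cb_sq (j + 1)
    have h2 := sq_nonneg (cb (j + 1))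
    push_cast at h1 ⊢
    linarith

theorem rho_le_three (l : ℕ) (hl : 3 ≤ l) : rho l ≤ 3 / 8 := by
  obtain ⟨j, rfl | rfl⟩ := Nat.even_or_odd' l
  · rw [rho_even]
    obtain ⟨i, rfl⟩ : ∃ i, j = i + 2 := ⟨j - 2, by omega⟩
    exact cb_le i
  · rw [rho_odd]
    obtain ⟨i, rfl⟩ : ∃ i, j = i + 1 := ⟨j - 1, by omega⟩
    exact cb_le i

theorem rho_one : rho 1 = 1 / 2 := by
  have := rho_odd 0
  rw [cb_one] at this
  exact this

theorem rho_two : rho 2 = 1 / 2 := by
  have := rho_even 1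
  rw [cb_one] at this
  exact this

theorem rho_le_one (l : ℕ) : rho l ≤ 1 := by
  rcases l with _ | _ | _ | l
  · norm_num [rho]
  · rw [rho_one]; norm_num
  · rw [rho_two]; norm_num
  · exact (rho_le_three (l + 3) (by omega)).trans (by norm_num)

/-- first bound for the product -/
theorem prod_le_three (m : ℕ) : ∏ l ∈ Finset.range m, rho (l + 1) ≤ 16 / 9 * (3 / 8) ^ m := by
  induction m with
  | zero => norm_num
  | succ m ih =>
    rw [Finset.prod_range_succ]
    rcases m with _ | _ | m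
    · rw [Finset.prod_range_zero, rho_one]
      norm_num
    · rw [Finset.prod_range_one, rho_one, rho_two]
      norm_num
    · have h1 := rho_le_three (m + 1 + 1 + 1) (by omega)
      have h2 := rho_nonneg (m + 1 + 1 + 1)
      refine (mul_le_mul ih h1 h2 (by positivity)).trans (le_of_eq ?_)
      rw [pow_succ _ (m + 1 + 1)]
      ring

theorem rho_le_w {L l : ℕ} (hL : 1 ≤ L) (hl : L ≤ l) : rho l ≤ (Real.sqrt L)⁻¹ := by
  have h1 := rho_sq l
  have h2 : (L : ℝ) ≤ l := by exact_mod_cast hl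
  have h3 : (1 : ℝ) ≤ L := by exact_mod_cast hL
  have h4 : (L : ℝ) * rho l ^ 2 ≤ 1 := le_trans (mul_le_mul_of_nonneg_right h2 (sq_nonneg _)) h1
  have h5 : 0 < Real.sqrt L := Real.sqrt_pos.2 (by linarith)
  rw [← one_div, le_div_iff₀ h5]
  by_contra hcon
  push Not at hcon
  have h6 : 1 < (rho l * Real.sqrt L) ^ 2 := by nlinarith
  rw [mul_pow, Real.sq_sqrt (by linarith)] at h6
  linarith

/-- second bound for the product -/
theorem prod_le_w {L : ℕ} (hL : 1 ≤ L) (m : ℕ) :
    ∏ l ∈ Finset.range m, rho (l + 1) ≤ ((Real.sqrt L)⁻¹) ^ (m - L) := by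
  have hw0 : 0 ≤ (Real.sqrt L)⁻¹ := inv_nonneg.2 (Real.sqrt_nonneg _)
  induction m with
  | zero => simp
  | succ m ih =>
    rw [Finset.prod_range_succ]
    rcases Nat.lt_or_ge m L with h | h
    · have e : m + 1 - L = 0 := by omega
      have e' : m - L = 0 := by omega
      rw [e', pow_zero] at ih
      rw [e, pow_zero]
      have h1 := rho_le_one (m + 1)
      have h2 := rho_nonneg (m + 1)
      calc (∏ l ∈ Finset.range m, rho (l + 1)) * rho (m + 1) ≤ 1 * 1 :=
            mul_le_mul ih h1 h2 zero_le_one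
        _ = 1 := one_mul 1
    · have e : m + 1 - L = (m - L) + 1 := by omega
      rw [e, pow_succ]
      exact mul_le_mul ih (rho_le_w hL (by omega)) (rho_nonneg _) (by positivity)

theorem bet_le_three {n : ℕ} (S Q : Finset (Fin n)) (hS : 3 ≤ #S) :
    bet rho S Q ≤ 16 / 9 * (3 / 8) ^ #Q := by
  have h1 : #(Q ∩ S) + #(Q \ S) = #Q := Finset.card_inter_add_card_sdiff Q S
  unfold bet
  rw [← h1, pow_add, ← mul_assoc]
  refine mul_le_mul (prod_le_three _) ?_ (pow_nonneg (rho_nonneg _) _) (by positivity)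
  exact pow_le_pow_left₀ (rho_nonneg _) (rho_le_three _ hS) _

theorem bet_le_w {n L : ℕ} (hL : 1 ≤ L) (S Q : Finset (Fin n)) (hS : L ≤ #S) :
    bet rho S Q ≤ ((Real.sqrt L)⁻¹) ^ (#Q - L) := by
  have hw0 : 0 ≤ (Real.sqrt L)⁻¹ := inv_nonneg.2 (Real.sqrt_nonneg _)
  have hw1 : (Real.sqrt L)⁻¹ ≤ 1 := by
    refine inv_le_one_of_one_le₀ ?_
    rw [Real.one_le_sqrt]
    exact_mod_cast hL
  have h1 : #(Q ∩ S) + #(Q \ S) = #Q := Finset.card_inter_add_card_sdiff Q S
  unfold bet
  have h2 : (∏ l ∈ Finset.range #(Q ∩ S), rho (l + 1)) * rho #S ^ #(Q \ S)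
      ≤ ((Real.sqrt L)⁻¹) ^ (#(Q ∩ S) - L) * ((Real.sqrt L)⁻¹) ^ #(Q \ S) :=
    mul_le_mul (prod_le_w hL _) (pow_le_pow_left₀ (rho_nonneg _) (rho_le_w hL hS) _)
      (pow_nonneg (rho_nonneg _) _) (by positivity)
  refine h2.trans ?_
  rw [← pow_add]
  exact pow_le_pow_of_le_one hw0 hw1 (by omega)

end P160
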