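import Vale.Agent.Lib.P160.Peel
import Vale.Agent.Lib.P160.LO
import Vale.Agent.Lib.P160.Lin

/-! P160: kernel vectors of minimal support. -/

namespace P160

open Finset

variable {n : ℕ}

/-- the row `r` applied to `v`, restricted to `S` -/
noncomputable def rs (S : Finset (Fin n)) (g : Sym2 (Fin n) → Bool) (r : Fin n) (v : Fin n → ℝ) : ℝ :=
  ∑ j ∈ S, sg (g s(r, j)) * v j

/-- the ratio of the Littlewood-Offord bound -/
noncomputable def rho (l : ℕ) : ℝ := (l.choose (l / 2) : ℝ) / 2 ^ l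

theorem rho_nonneg (l : ℕ) : 0 ≤ rho l := by
  unfold rho
  positivity

/-- `v` spans the kernel, restricted to `S`, already of the rows in `I` -/
def Good (S I : Finset (Fin n)) (g : Sym2 (Fin n) → Bool) : Prop :=
  ∃ v : Fin n → ℝ, (∀ j ∈ S, v j ≠ 0) ∧ (∀ j, j ∉ S → v j = 0) ∧ (∀ r, rs S g r v = 0) ∧
    ∀ u : Fin n → ℝ, (∀ j, j ∉ S → u j = 0) → (∀ i ∈ I, rs S g i u = 0) → ∃ c : ℝ, u = c • v

open Classical in
private theorem Struct_lo (S : Finset (Fin n)) (v : Fin n → ℝ) (hv : ∀ j ∈ S, v j ≠ 0)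
    (J : Finset (Fin n)) (hJ : J ⊆ S) (τ0 : Fin n → Bool) :
    (#{τ : J → Bool | ∑ j ∈ S, sg (ext J τ τ0 j) * v j = 0} : ℝ) ≤ rho #J * 2 ^ #J := by
  have h1 := lo (fun j : J => v j) (fun j => hv j (hJ j.2)) (-∑ j ∈ S \ J, sg (τ0 j) * v j)
  rw [Fintype.card_coe] at h1
  have h2 : rho #J * 2 ^ #J = ((#J).choose (#J / 2) : ℝ) := by
    unfold rho
    rw [div_mul_cancel₀]
    positivity
  rw [h2]
  refine le_trans (Nat.cast_le.2 (Finset.card_le_card fun τ hτ => ?_)) (Nat.cast_le.2 h1)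
  rw [Finset.mem_filter] at hτ ⊢
  refine ⟨Finset.mem_univ _, ?_⟩
  have h3 := hτ.2
  rw [← Finset.sum_sdiff hJ] at h3
  have h4 : ∑ j ∈ S \ J, sg (ext J τ τ0 j) * v j = ∑ j ∈ S \ J, sg (τ0 j) * v j := by
    refine Finset.sum_congr rfl fun j hj => ?_
    have : j ∉ J := (Finset.mem_sdiff.1 hj).2
    rw [ext, dif_neg this]
  have h5 : ∑ j ∈ J, sg (ext J τ τ0 j) * v j = ∑ j : J, sg (τ j) * v j := by
    rw [← Finset.sum_coe_sort J]
    refine Finset.sum_congr rfl fun j _ => ?_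
    rw [ext, dif_pos j.2]
  rw [h4, h5] at h3
  linarith

open Classical in
/-- **Counting the good matrices.** -/
theorem card_good (S I : Finset (Fin n)) :
    (#{g : Sym2 (Fin n) → Bool | Good S I g} : ℝ)
      ≤ bet rho S Iᶜ * 2 ^ Fintype.card (Sym2 (Fin n)) := by
  have hb0 : 0 ≤ bet rho S Iᶜ := by
    unfold bet
    exact mul_nonneg (Finset.prod_nonneg fun l _ => rho_nonneg _) (pow_nonneg (rho_nonneg _) _)
  have hle : #(Dt S Iᶜ) ≤ Fintype.card (Sym2 (Fin n)) := Finset.card_le_univ _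
  have h1 := card_cond {g : Sym2 (Fin n) → Bool | Good S I g} (Dt S Iᶜ)
    (b := bet rho S Iᶜ * 2 ^ (Fintype.card (Sym2 (Fin n)) - #(Dt S Iᶜ))) (by positivity) ?_
  · refine h1.trans (le_of_eq ?_)
    have h2 : Fintype.card (Sym2 (Fin n))
        = #(Dt S Iᶜ) + (Fintype.card (Sym2 (Fin n)) - #(Dt S Iᶜ)) := by omega
    conv_rhs => rw [h2, pow_add]
    ring
  · intro g0 hg0
    rw [Finset.mem_filter] at hg0
    obtain ⟨-, v0, hv1, hv2, hv3, hv4⟩ := hg0
    have h3 := peel S (fun _ τ => ∑ j ∈ S, sg (τ j) * v0 j = 0) rho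
      (fun r τ τ' hτ h => by
        rw [← h]
        exact Finset.sum_congr rfl fun j hj => by rw [hτ j hj])
      (fun r J hJ τ0 => Struct_lo S v0 hv1 J hJ τ0) rho_nonneg Iᶜ g0
    refine le_trans (Nat.cast_le.2 (Finset.card_le_card fun g hg => ?_)) h3
    rw [Finset.mem_filter, Finset.mem_filter] at hg
    rw [Finset.mem_filter]
    obtain ⟨⟨-, v, w1, w2, w3, w4⟩, hg2⟩ := hg
    refine ⟨Finset.mem_univ _, hg2, fun r _ => ?_⟩
    obtain ⟨c, hc⟩ := w4 v0 hv2 (fun i hi => by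
      rw [← hv3 i]
      refine Finset.sum_congr rfl fun j hj => ?_
      rw [hg2 s(i, j)]
      unfold Dt
      rw [Finset.mem_filter]
      exact ⟨Finset.mem_univ _, i, by simpa using hi, j, hj, rfl⟩)
    have h4 : rs S g r v0 = c * rs S g r v := by
      rw [hc, rs, rs, Finset.mul_sum]
      refine Finset.sum_congr rfl fun j _ => ?_
      rw [Pi.smul_apply, smul_eq_mul]
      ring
    rw [w3 r, mul_zero] at h4
    exact h4

/-- the vectors supported in `S` -/
def VS (S : Finset (Fin n)) : Submodule ℝ (Fin n → ℝ) where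
  carrier := {u | ∀ j, j ∉ S → u j = 0}
  add_mem' := by
    intro a b h1 h2 j hj
    rw [Pi.add_apply, h1 j hj, h2 j hj, add_zero]
  zero_mem' := fun _ _ => rfl
  smul_mem' := by
    intro c a h1 j hj
    rw [Pi.smul_apply, h1 j hj, smul_zero]

theorem finrank_VS (S : Finset (Fin n)) : Module.finrank ℝ (VS S) ≤ #S := by
  have h1 : Module.finrank ℝ (VS S) ≤ Module.finrank ℝ (S → ℝ) := by
    refine LinearMap.finrank_le_finrank_of_injective
      (f := (LinearMap.funLeft ℝ ℝ (Subtype.val : S → Fin n)).comp (VS S).subtype) ?_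
    intro a b h
    ext j
    by_cases hj : j ∈ S
    · exact congrFun h ⟨j, hj⟩
    · rw [a.2 j hj, b.2 j hj]
  rwa [Module.finrank_fintype_fun_eq_card, Fintype.card_coe] at h1

/-- the functional of the row -/
noncomputable def rl (S : Finset (Fin n)) (g : Sym2 (Fin n) → Bool) (r : Fin n) :
    (Fin n → ℝ) →ₗ[ℝ] ℝ where
  toFun := rs S g r
  map_add' := by
    intro a b
    rw [rs, rs, rs, ← Finset.sum_add_distrib]
    exact Finset.sum_congr rfl fun j _ => by rw [Pi.add_apply]; ring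
  map_smul' := by
    intro c a
    rw [rs, rs, RingHom.id_apply, smul_eq_mul, Finset.mul_sum]
    exact Finset.sum_congr rfl fun j _ => by rw [Pi.smul_apply, smul_eq_mul]; ring

theorem rl_apply (S : Finset (Fin n)) (g : Sym2 (Fin n) → Bool) (r : Fin n) (u : Fin n → ℝ) :
    rl S g r u = rs S g r u := rfl

/-- the full row on a vector supported in `S` -/
theorem rs_univ {S : Finset (Fin n)} {g : Sym2 (Fin n) → Bool} {r : Fin n} {u : Fin n → ℝ}
    (hu : ∀ j, j ∉ S → u j = 0) : rs Finset.univ g r u = rs S g r u := by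
  unfold rs
  refine (Finset.sum_subset (Finset.subset_univ S) fun j _ hj => ?_).symm
  rw [hu j hj, mul_zero]

/-- **Minimal support.** -/
theorem good_of_min {g : Sym2 (Fin n) → Bool} {v : Fin n → ℝ} {S : Finset (Fin n)}
    (hS : ∀ j, j ∈ S ↔ v j ≠ 0) (hne : S.Nonempty) (hv : ∀ r, rs Finset.univ g r v = 0)
    (hmin : ∀ u : Fin n → ℝ, (∀ r, rs Finset.univ g r u = 0) → (∀ j, j ∉ S → u j = 0) →
      (∃ j ∈ S, u j = 0) → u = 0) :
    ∃ I : Finset (Fin n), #I = #S - 1 ∧ Good S I g := by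
  have hv0 : ∀ j, j ∉ S → v j = 0 := by
    intro j hj
    by_contra h
    exact hj ((hS j).2 h)
  have hvS : ∀ r, rs S g r v = 0 := fun r => by rw [← rs_univ hv0]; exact hv r
  obtain ⟨I, hI1, hI2⟩ := exists_rows (VS S) (rl S g) _ ∅ le_rfl
  have h1 : Module.finrank ℝ (ker' (VS S) (rl S g) ∅) ≤ #S :=
    (Submodule.finrank_mono fun u hu => (mem_ker'.1 hu).1).trans (finrank_VS S)
  have h2 : 1 ≤ Module.finrank ℝ (ker' (VS S) (rl S g) Finset.univ) := by
    rw [Nat.one_le_iff_ne_zero, Ne, Submodule.finrank_eq_zero]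
    intro h3
    have h4 : v ∈ ker' (VS S) (rl S g) Finset.univ := ⟨hv0, fun i _ => hvS i⟩
    rw [h3, Submodule.mem_bot] at h4
    obtain ⟨j, hj⟩ := hne
    exact (hS j).1 hj (by rw [h4]; rfl)
  rw [Finset.card_empty] at hI1
  have h3 : #S ≤ n := by
    have := Finset.card_le_univ S
    rwa [Fintype.card_fin] at this
  obtain ⟨I', hI', hI'c⟩ := Finset.exists_superset_card_eq (s := I) (n := #S - 1) (by omega)
    (by rw [Fintype.card_fin]; omega)
  refine ⟨I', hI'c, v, fun j hj => (hS j).1 hj, hv0, hvS, fun u hu hu' => ?_⟩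
  have h4 : u ∈ ker' (VS S) (rl S g) Finset.univ := by
    rw [← hI2]
    exact ker'_anti hI' ⟨hu, hu'⟩
  obtain ⟨j, hj⟩ := hne
  refine ⟨u j / v j, ?_⟩
  have h5 := hmin (u - (u j / v j) • v) (fun r => ?_) (fun i hi => ?_) ⟨j, hj, ?_⟩
  · exact sub_eq_zero.1 h5
  · rw [← rl_apply, map_sub, map_smul, rl_apply, rl_apply, hv r, rs_univ hu]
    have := h4.2 r (Finset.mem_univ r)
    rw [rl_apply] at this
    rw [this, smul_zero, sub_zero]
  · rw [Pi.sub_apply, Pi.smul_apply, hu i hi, hv0 i hi, smul_zero, sub_zero]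
  · rw [Pi.sub_apply, Pi.smul_apply, smul_eq_mul, div_mul_cancel₀ _ ((hS j).1 hj), sub_self]

end P160
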