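import Vale.Agent.Lib.P160.Struct
import Vale.Agent.Lib.P160.Pairs

/-! P160: the union bound and Bonferroni. -/

namespace P160

open Finset

variable {n : ℕ}

/-- there is a kernel vector with at least `z` zero coordinates -/
def Sp (z : ℕ) (g : Sym2 (Fin n) → Bool) : Prop :=
  ∃ v : Fin n → ℝ, v ≠ 0 ∧ (∀ r, rs Finset.univ g r v = 0) ∧ z ≤ #{j | v j = 0}

/-- the event of the ordered pair -/
def Fe (p : Fin n × Fin n) (g : Sym2 (Fin n) → Bool) : Prop := Ev p.1 p.2 (decide (p.2 < p.1)) g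

theorem Fe_of_Ev {i j : Fin n} (hij : i ≠ j) {b : Bool} {g : Sym2 (Fin n) → Bool}
    (h : Ev i j b g) : ∃ p ∈ (Finset.univ : Finset (Fin n)).offDiag, Fe p g := by
  rcases lt_or_gt_of_ne hij with h1 | h1
  · cases b with
    | false =>
      refine ⟨(i, j), by simp [hij], ?_⟩
      unfold Fe
      rwa [decide_eq_false (not_lt.2 h1.le)]
    | true =>
      refine ⟨(j, i), by simp [hij.symm], ?_⟩
      unfold Fe
      rw [decide_eq_true h1]
      exact h.symm
  · cases b with
    | false =>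
      refine ⟨(j, i), by simp [hij.symm], ?_⟩
      unfold Fe
      rw [decide_eq_false (not_lt.2 (le_of_lt h1))]
      exact h.symm
    | true =>
      refine ⟨(i, j), by simp [hij], ?_⟩
      unfold Fe
      rwa [decide_eq_true (show (i, j).2 < (i, j).1 from h1)]

theorem Sp_of_Ev {i j : Fin n} (hij : i ≠ j) {b : Bool} {g : Sym2 (Fin n) → Bool}
    (h : Ev i j b g) {z : ℕ} (hz : z + 2 ≤ n) : Sp z g := by
  classical
  refine ⟨fun x => if x = i then 1 else if x = j then sg b else 0, ?_, ?_, ?_⟩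
  · intro h0
    have := congrFun h0 i
    simp at this
  · intro r
    unfold rs
    have h1 : ∀ x : Fin n, sg (g s(r, x)) * (if x = i then 1 else if x = j then sg b else 0)
        = (if x = i then sg (g s(r, i)) else 0) + (if x = j then sg (g s(r, j)) * sg b else 0) := by
      intro x
      by_cases hx : x = i
      · subst hx
        rw [if_pos rfl, if_pos rfl, if_neg hij, mul_one, add_zero]
      · rw [if_neg hx, if_neg hx, zero_add]
        by_cases hx' : x = j
        · subst hx'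
          rw [if_pos rfl, if_pos rfl]
        · rw [if_neg hx', if_neg hx', mul_zero]
    rw [Finset.sum_congr rfl fun x _ => h1 x, Finset.sum_add_distrib, Finset.sum_ite_eq',
      Finset.sum_ite_eq', if_pos (Finset.mem_univ _), if_pos (Finset.mem_univ _), h r]
    cases b <;> cases g s(r, j) <;> norm_num [sg]
  · have h1 : (({i, j} : Finset (Fin n))ᶜ) ⊆
        ({x | (if x = i then (1 : ℝ) else if x = j then sg b else 0) = 0} : Finset (Fin n)) := by
      intro x hx
      rw [Finset.mem_compl, Finset.mem_insert, Finset.mem_singleton] at hx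
      push Not at hx
      rw [Finset.mem_filter, if_neg hx.1, if_neg hx.2]
      exact ⟨Finset.mem_univ _, rfl⟩
    refine le_trans ?_ (Finset.card_le_card h1)
    rw [Finset.card_compl, Fintype.card_fin, Finset.card_pair hij]
    omega

theorem exists_of_Sp {z : ℕ} {g : Sym2 (Fin n) → Bool} (h : Sp z g) :
    (∃ p ∈ (Finset.univ : Finset (Fin n)).offDiag, Fe p g) ∨
      ∃ S I : Finset (Fin n), 3 ≤ #S ∧ #S + z ≤ n ∧ #I = #S - 1 ∧ Good S I g := by
  classical
  obtain ⟨v1, hv1, hk1, hz1⟩ := h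
  have hex : ∃ m, ∃ v : Fin n → ℝ, v ≠ 0 ∧ (∀ r, rs Finset.univ g r v = 0) ∧ #{j | v j ≠ 0} = m :=
    ⟨_, v1, hv1, hk1, rfl⟩
  obtain ⟨v, hv, hk, hm⟩ := Nat.find_spec hex
  have hmle := Nat.find_min' hex ⟨v1, hv1, hk1, rfl⟩
  have hmin : ∀ u : Fin n → ℝ, u ≠ 0 → (∀ r, rs Finset.univ g r u = 0) →
      Nat.find hex ≤ #{j | u j ≠ 0} := fun u hu hu' => Nat.find_min' hex ⟨u, hu, hu', rfl⟩
  rw [← hm] at hmle hmin
  set S : Finset (Fin n) := {j | v j ≠ 0} with hS
  have hmem : ∀ j, j ∈ S ↔ v j ≠ 0 := fun j => by simp [hS]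
  have hSz : #S + z ≤ n := by
    have h0 : ({j | v1 j ≠ 0} : Finset (Fin n)) = ({j | v1 j = 0} : Finset (Fin n))ᶜ := by
      ext j
      simp
    have h1 : #({j | v1 j = 0} : Finset (Fin n)) ≤ n := by
      have := Finset.card_le_univ ({j | v1 j = 0} : Finset (Fin n))
      rwa [Fintype.card_fin] at this
    rw [h0, Finset.card_compl, Fintype.card_fin] at hmle
    omega
  have hv0 : ∀ j, j ∉ S → v j = 0 := by
    intro j hj
    by_contra h
    exact hj ((hmem j).2 h)
  have hne : S.Nonempty := by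
    rw [Finset.nonempty_iff_ne_empty]
    intro h0
    apply hv
    funext j
    exact hv0 j (by rw [h0]; exact Finset.notMem_empty j)
  have hSpos : 0 < #S := Finset.card_pos.2 hne
  have hkS : ∀ r, rs S g r v = 0 := fun r => by rw [← rs_univ hv0]; exact hk r
  rcases Nat.lt_or_ge 2 #S with h3 | h3
  · refine Or.inr ?_
    obtain ⟨I, hI, hG⟩ := good_of_min hmem hne hk (fun u hu hu' ⟨j, hj, hj'⟩ => by
      by_contra hu0
      have h4 := hmin u hu0 hu
      have h5 : ({j | u j ≠ 0} : Finset (Fin n)) ⊂ S := by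
        rw [Finset.ssubset_iff_of_subset]
        · exact ⟨j, hj, by simp [hj']⟩
        · intro i hi
          by_contra h6
          exact (Finset.mem_filter.1 hi).2 (hu' i h6)
      have := Finset.card_lt_card h5
      omega)
    exact ⟨S, I, h3, hSz, hI, hG⟩
  · refine Or.inl ?_
    have h4 : #S ≠ 1 := by
      intro h5
      obtain ⟨j, hj⟩ := Finset.card_eq_one.1 h5
      have h6 := hkS j
      rw [rs, hj, Finset.sum_singleton] at h6
      have h7 : v j ≠ 0 := (hmem j).1 (by rw [hj]; exact Finset.mem_singleton_self j)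
      rcases sg_cases (g s(j, j)) with h8 | h8 <;> rw [h8] at h6 <;> apply h7 <;> linarith
    have h5 : #S = 2 := by omega
    obtain ⟨i, j, hij, hSij⟩ := Finset.card_eq_two.1 h5
    have hvi : v i ≠ 0 := (hmem i).1 (by rw [hSij]; simp)
    have hrow : ∀ r, sg (g s(r, i)) * v i + sg (g s(r, j)) * v j = 0 := by
      intro r
      have := hkS r
      rwa [rs, hSij, Finset.sum_pair hij] at this
    have hvv : v j = v i ∨ v j = -v i := by
      have := hrow i
      rcases sg_cases (g s(i, i)) with h8 | h8 <;> rcases sg_cases (g s(i, j)) with h9 | h9 <;>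
        rw [h8, h9] at this
      · right; linarith
      · left; linarith
      · left; linarith
      · right; linarith
    rcases hvv with h6 | h6
    · refine Fe_of_Ev hij (b := true) fun r => ?_
      have h7 := hrow r
      rw [h6, ← add_mul] at h7
      have h8 := (mul_eq_zero.1 h7).resolve_right hvi
      have h9 : sg (g s(r, i)) = sg (!(g s(r, j))) := by
        rw [sg_not]
        linarith
      rw [sg_inj h9]
      simp
    · refine Fe_of_Ev hij (b := false) fun r => ?_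
      have h7 := hrow r
      rw [h6, mul_neg, ← sub_eq_add_neg, ← sub_mul] at h7
      have h8 := (mul_eq_zero.1 h7).resolve_right hvi
      have h9 : sg (g s(r, i)) = sg (g s(r, j)) := by linarith
      rw [sg_inj h9]
      simp

open Classical in
/-- **Upper bound.** -/
theorem card_Sp_le (z : ℕ) :
    (#{g : Sym2 (Fin n) → Bool | Sp z g} : ℝ)
      ≤ (n * (n - 1) : ℝ) * 2 ^ (Fintype.card (Sym2 (Fin n)) - n)
        + ∑ S ∈ (Finset.univ : Finset (Finset (Fin n))).filter (fun S => 3 ≤ #S ∧ #S + z ≤ n),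
          ∑ I ∈ (Finset.univ : Finset (Finset (Fin n))).filter (fun I => #I = #S - 1),
            bet rho S Iᶜ * 2 ^ Fintype.card (Sym2 (Fin n)) := by
  set A : Finset (Sym2 (Fin n) → Bool) :=
    (Finset.univ : Finset (Fin n)).offDiag.biUnion fun p => {g | Fe p g} with hA
  set B : Finset (Sym2 (Fin n) → Bool) :=
    ((Finset.univ : Finset (Finset (Fin n))).filter (fun S => 3 ≤ #S ∧ #S + z ≤ n)).biUnion
      fun S => ((Finset.univ : Finset (Finset (Fin n))).filter (fun I => #I = #S - 1)).biUnion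
        fun I => {g | Good S I g} with hB
  have h1 : #{g : Sym2 (Fin n) → Bool | Sp z g} ≤ #A + #B := by
    refine le_trans (Finset.card_le_card fun g hg => ?_) (Finset.card_union_le A B)
    rw [Finset.mem_filter] at hg
    rw [Finset.mem_union]
    rcases exists_of_Sp hg.2 with ⟨p, hp, hF⟩ | ⟨S, I, hS1, hS2, hI, hG⟩
    · left
      rw [hA, Finset.mem_biUnion]
      exact ⟨p, hp, Finset.mem_filter.2 ⟨Finset.mem_univ _, hF⟩⟩
    · right
      rw [hB, Finset.mem_biUnion]
      refine ⟨S, Finset.mem_filter.2 ⟨Finset.mem_univ _, hS1, hS2⟩, ?_⟩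
      rw [Finset.mem_biUnion]
      exact ⟨I, Finset.mem_filter.2 ⟨Finset.mem_univ _, hI⟩,
        Finset.mem_filter.2 ⟨Finset.mem_univ _, hG⟩⟩
  have h2 : (#A : ℝ) ≤ (n * (n - 1) : ℝ) * 2 ^ (Fintype.card (Sym2 (Fin n)) - n) := by
    have h3 : #A ≤ ∑ p ∈ (Finset.univ : Finset (Fin n)).offDiag,
        #{g : Sym2 (Fin n) → Bool | Fe p g} := Finset.card_biUnion_le
    have h4 : (#A : ℝ) ≤ ∑ p ∈ (Finset.univ : Finset (Fin n)).offDiag,
        (#{g : Sym2 (Fin n) → Bool | Fe p g} : ℝ) := by exact_mod_cast h3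
    refine h4.trans ?_
    refine (Finset.sum_le_card_nsmul _ _ _ fun p hp =>
      card_Ev_le (Finset.mem_offDiag.1 hp).2.2 _).trans (le_of_eq ?_)
    rw [Finset.offDiag_card, Finset.card_univ, Fintype.card_fin, nsmul_eq_mul,
      Nat.cast_sub (Nat.le_mul_self n)]
    push_cast
    ring
  have h5 : (#B : ℝ) ≤ ∑ S ∈ (Finset.univ : Finset (Finset (Fin n))).filter
      (fun S => 3 ≤ #S ∧ #S + z ≤ n),
        ∑ I ∈ (Finset.univ : Finset (Finset (Fin n))).filter (fun I => #I = #S - 1),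
          bet rho S Iᶜ * 2 ^ Fintype.card (Sym2 (Fin n)) := by
    refine (Nat.cast_le.2 Finset.card_biUnion_le).trans ?_
    rw [Nat.cast_sum]
    refine Finset.sum_le_sum fun S _ => ?_
    refine (Nat.cast_le.2 Finset.card_biUnion_le).trans ?_
    rw [Nat.cast_sum]
    exact Finset.sum_le_sum fun I _ => card_good S I
  have h6 : (#{g : Sym2 (Fin n) → Bool | Sp z g} : ℝ) ≤ #A + #B := by exact_mod_cast h1
  linarith

open Classical in
/-- no two columns agree up to sign -/
theorem card_SpN_le (z : ℕ) :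
    (#{g : Sym2 (Fin n) → Bool | Sp z g ∧ ¬ ∃ i j : Fin n, i ≠ j ∧ ∃ b, Ev i j b g} : ℝ)
      ≤ ∑ S ∈ (Finset.univ : Finset (Finset (Fin n))).filter (fun S => 3 ≤ #S ∧ #S + z ≤ n),
          ∑ I ∈ (Finset.univ : Finset (Finset (Fin n))).filter (fun I => #I = #S - 1),
            bet rho S Iᶜ * 2 ^ Fintype.card (Sym2 (Fin n)) := by
  set B : Finset (Sym2 (Fin n) → Bool) :=
    ((Finset.univ : Finset (Finset (Fin n))).filter (fun S => 3 ≤ #S ∧ #S + z ≤ n)).biUnion
      fun S => ((Finset.univ : Finset (Finset (Fin n))).filter (fun I => #I = #S - 1)).biUnion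
        fun I => {g | Good S I g} with hB
  have h1 : (#{g : Sym2 (Fin n) → Bool | Sp z g ∧ ¬ ∃ i j : Fin n, i ≠ j ∧ ∃ b, Ev i j b g} : ℝ)
      ≤ #B := by
    refine Nat.cast_le.2 (Finset.card_le_card fun g hg => ?_)
    rw [Finset.mem_filter] at hg
    rcases exists_of_Sp hg.2.1 with ⟨p, hp, hF⟩ | ⟨S, I, hS1, hS2, hI, hG⟩
    · exact absurd ⟨p.1, p.2, (Finset.mem_offDiag.1 hp).2.2, _, hF⟩ hg.2.2
    · rw [hB, Finset.mem_biUnion]
      refine ⟨S, Finset.mem_filter.2 ⟨Finset.mem_univ _, hS1, hS2⟩, ?_⟩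
      rw [Finset.mem_biUnion]
      exact ⟨I, Finset.mem_filter.2 ⟨Finset.mem_univ _, hI⟩,
        Finset.mem_filter.2 ⟨Finset.mem_univ _, hG⟩⟩
  refine h1.trans ?_
  refine (Nat.cast_le.2 Finset.card_biUnion_le).trans ?_
  rw [Nat.cast_sum]
  refine Finset.sum_le_sum fun S _ => ?_
  refine (Nat.cast_le.2 Finset.card_biUnion_le).trans ?_
  rw [Nat.cast_sum]
  exact Finset.sum_le_sum fun I _ => card_good S I

theorem Fe_inter {p q : Fin n × Fin n} (hp : p.1 ≠ p.2) (hq : q.1 ≠ q.2) (hpq : q ≠ p) :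
    (∀ g, ¬ (Fe p g ∧ Fe q g)) ∨ ∃ a a' : Fin n, ∃ c : Bool, a ≠ a' ∧ a ≠ p.1 ∧ a ≠ p.2 ∧
      ∀ g, Fe q g → Ev a a' c g := by
  obtain ⟨i, j⟩ := p
  obtain ⟨k, l⟩ := q
  simp only [] at hp hq
  by_cases h1 : k ≠ i ∧ k ≠ j
  · exact Or.inr ⟨k, l, _, hq, h1.1, h1.2, fun g hg => hg⟩
  by_cases h2 : l ≠ i ∧ l ≠ j
  · exact Or.inr ⟨l, k, _, hq.symm, h2.1, h2.2, fun g hg => hg.symm⟩
  left
  have h3 : k = j ∧ l = i := by
    by_cases hki : k = i
    · exfalso
      have h4 : l = j := by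
        by_contra h5
        apply h2
        exact ⟨fun h6 => hq (by rw [hki, h6]), h5⟩
      exact hpq (by rw [hki, h4])
    · have hkj : k = j := by
        by_contra h5
        exact h1 ⟨hki, h5⟩
      refine ⟨hkj, ?_⟩
      by_contra h5
      exact h2 ⟨h5, fun h6 => hq (by rw [hkj, h6])⟩
  obtain ⟨rfl, rfl⟩ := h3
  rintro g ⟨hg1, hg2⟩
  have e1 : g s(k, l) = xor (decide (k < l)) (g s(k, k)) := hg1 k
  have e2 : g s(k, l) = xor (decide (l < k)) (g s(k, k)) := Ev.symm hg2 k
  rcases lt_or_gt_of_ne hp with h6 | h6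
  · rw [decide_eq_false (not_lt.2 h6.le)] at e1
    rw [decide_eq_true h6] at e2
    rw [e1] at e2
    cases g s(k, k) <;> simp at e2
  · rw [decide_eq_true h6] at e1
    rw [decide_eq_false (not_lt.2 (le_of_lt h6))] at e2
    rw [e1] at e2
    cases g s(k, k) <;> simp at e2

open Classical in
/-- **Lower bound.** -/
theorem card_Sp_ge {z : ℕ} (hz : z + 2 ≤ n) :
    (n * (n - 1) : ℝ) * (1 / 2 ^ n - n ^ 2 / 4 ^ (n - 4)) * 2 ^ Fintype.card (Sym2 (Fin n))
      ≤ (#{g : Sym2 (Fin n) → Bool | Sp z g} : ℝ) := by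
  set E := (Finset.univ : Finset (Fin n)).offDiag with hE
  set F : Fin n × Fin n → Finset (Sym2 (Fin n) → Bool) := fun p => {g | Fe p g} with hF
  set F' : Fin n × Fin n → Finset (Sym2 (Fin n) → Bool) :=
    fun p => F p \ ((E.erase p).biUnion fun q => F p ∩ F q) with hF'
  set M : ℝ := 2 ^ Fintype.card (Sym2 (Fin n)) with hM
  have hMpos : 0 < M := by positivity
  have hcE : (#E : ℝ) = n * (n - 1) := by
    rw [hE, Finset.offDiag_card, Finset.card_univ, Fintype.card_fin,
      Nat.cast_sub (Nat.le_mul_self n)]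
    push_cast
    ring
  have hcE2 : (#E : ℝ) ≤ n ^ 2 := by
    rw [hcE]
    have : (0 : ℝ) ≤ n := Nat.cast_nonneg n
    nlinarith
  have h1 : ∀ p ∈ E, (1 / 2 ^ n - n ^ 2 / 4 ^ (n - 4)) * M ≤ #(F' p) := by
    intro p hp
    have hp' : p.1 ≠ p.2 := (Finset.mem_offDiag.1 hp).2.2
    have h2 : M / 2 ^ n ≤ #(F p) := by
      rw [div_le_iff₀ (by positivity)]
      exact card_Ev_ge hp' _
    have h3 : ∀ q ∈ E.erase p, (#(F p ∩ F q) : ℝ) ≤ M / 4 ^ (n - 4) := by
      intro q hq
      rw [Finset.mem_erase] at hq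
      have hq' : q.1 ≠ q.2 := (Finset.mem_offDiag.1 hq.2).2.2
      rcases Fe_inter hp' hq' hq.1 with h4 | ⟨a, a', c, h4, h5, h6, h7⟩
      · have h8 : F p ∩ F q = ∅ := by
          rw [Finset.eq_empty_iff_forall_notMem]
          intro g hg
          rw [Finset.mem_inter, hF, Finset.mem_filter, Finset.mem_filter] at hg
          exact h4 g ⟨hg.1.2, hg.2.2⟩
        rw [h8, Finset.card_empty, Nat.cast_zero]
        positivity
      · rw [le_div_iff₀ (by positivity)]
        refine le_trans ?_ (card_Ev_inter hp' h4 h5 h6 (decide (p.2 < p.1)) c)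
        refine mul_le_mul_of_nonneg_right ?_ (by positivity)
        refine Nat.cast_le.2 (Finset.card_le_card fun g hg => ?_)
        rw [Finset.mem_inter, hF, Finset.mem_filter, Finset.mem_filter] at hg
        exact Finset.mem_filter.2 ⟨Finset.mem_univ _, hg.1.2, h7 g hg.2.2⟩
    have h9 : (#((E.erase p).biUnion fun q => F p ∩ F q) : ℝ) ≤ n ^ 2 * (M / 4 ^ (n - 4)) := by
      refine (Nat.cast_le.2 Finset.card_biUnion_le).trans ?_
      rw [Nat.cast_sum]
      refine (Finset.sum_le_card_nsmul _ _ _ h3).trans ?_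
      rw [nsmul_eq_mul]
      refine mul_le_mul_of_nonneg_right ?_ (by positivity)
      refine le_trans (Nat.cast_le.2 (Finset.card_le_card (Finset.erase_subset p E))) hcE2
    have h10 : (#(F p) : ℝ) - #((E.erase p).biUnion fun q => F p ∩ F q) ≤ #(F' p) := by
      have := Finset.le_card_sdiff ((E.erase p).biUnion fun q => F p ∩ F q) (F p)
      have h11 : #(F p) ≤ #(F' p) + #((E.erase p).biUnion fun q => F p ∩ F q) := by
        have h0 : F' p = F p \ ((E.erase p).biUnion fun q => F p ∩ F q) := rfl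
        rw [h0]
        omega
      have h12 : (#(F p) : ℝ) ≤ #(F' p) + #((E.erase p).biUnion fun q => F p ∩ F q) := by
        exact_mod_cast h11
      linarith
    have h13 : (1 / 2 ^ n - (n : ℝ) ^ 2 / 4 ^ (n - 4)) * M
        = M / 2 ^ n - n ^ 2 * (M / 4 ^ (n - 4)) := by ring
    rw [h13]
    linarith
  have h2 : (E : Set (Fin n × Fin n)).PairwiseDisjoint F' := by
    intro p hp q hq hpq
    rw [Function.onFun, Finset.disjoint_left]
    intro g hg hg'
    rw [hF', Finset.mem_sdiff] at hg hg'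
    refine hg.2 ?_
    rw [Finset.mem_biUnion]
    exact ⟨q, Finset.mem_erase.2 ⟨hpq.symm, hq⟩, Finset.mem_inter.2 ⟨hg.1, hg'.1⟩⟩
  have h3 : #(E.biUnion F') ≤ #{g : Sym2 (Fin n) → Bool | Sp z g} := by
    refine Finset.card_le_card fun g hg => ?_
    rw [Finset.mem_biUnion] at hg
    obtain ⟨p, hp, hg⟩ := hg
    rw [hF', Finset.mem_sdiff, hF, Finset.mem_filter] at hg
    exact Finset.mem_filter.2 ⟨Finset.mem_univ _,
      Sp_of_Ev (Finset.mem_offDiag.1 hp).2.2 hg.1.2 hz⟩
  rw [Finset.card_biUnion h2] at h3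
  have h4 : ((∑ p ∈ E, #(F' p) : ℕ) : ℝ) ≤ #{g : Sym2 (Fin n) → Bool | Sp z g} := by
    exact_mod_cast h3
  refine le_trans ?_ h4
  rw [Nat.cast_sum, mul_assoc, ← hcE, ← nsmul_eq_mul]
  exact Finset.card_nsmul_le_sum _ _ _ h1

end P160
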